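import Crest.Agent.X261.Rel.Ms
import Crest.Agent.R189.Amen
import Crest.Prelude.Def_GroupVNA

/-!
# X261, package REL (helper34): affine isometric actions without almost fixed points

`Rep K H`: a unitary representation of `K` on the complex Hilbert space `H` commuting with a
conjugation `J` (the real Hilbert space is `{x | J x = x}`); `Act K H`: with a real cocycle.
`exists_act`: an infinite, finitely generated, amenable group has such an action without almost
fixed points.
-/

set_option autoImplicit false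
set_option linter.unusedSectionVars false
set_option linter.dupNamespace false

open scoped ComplexConjugate InnerProductSpace
open Filter Topology

namespace Crest.Agent.X261.Rel.Act

open Crest.Agent.R189 Crest.Agent.R189.MeanF Crest.Agent.X261.Rel.Ms

attribute [-instance] CStarModule.toInner

noncomputable section

/-- a unitary representation with a real structure -/
structure Rep (K : Type*) [Group K] (H : Type*) [NormedAddCommGroup H] [InnerProductSpace ℂ H] where
  π : K →* (H ≃ₗᵢ[ℂ] H)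
  J : H ≃ₗᵢ⋆[ℂ] H
  JJ : ∀ x, J (J x) = x
  Jπ : ∀ g x, J (π g x) = π g (J x)

/-- an affine isometric action preserving the real structure -/
structure Act (K : Type*) [Group K] (H : Type*) [NormedAddCommGroup H] [InnerProductSpace ℂ H]
    extends Rep K H where
  b : K → H
  Jb : ∀ g, J (b g) = b g
  coc : ∀ g h, b (g * h) = b g + π g (b h)

variable {K K' : Type*} [Group K] [Group K'] {H : Type*} [NormedAddCommGroup H]
  [InnerProductSpace ℂ H]

/-- an antilinear isometry reverses inner products -/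
theorem inner_conj (J : H ≃ₗᵢ⋆[ℂ] H) (x y : H) : ⟪J x, J y⟫_ℂ = ⟪y, x⟫_ℂ := by
  rw [inner_eq_sum_norm_sq_div_four, ← inner_conj_symm, inner_eq_sum_norm_sq_div_four]
  have h1 : J x + J y = J (x + y) := (map_add J x y).symm
  have h2 : J x - J y = J (x - y) := (map_sub J x y).symm
  have h3 : J x - (RCLike.I : ℂ) • J y = J (x + (RCLike.I : ℂ) • y) := by
    rw [map_add, map_smulₛₗ]; simp [sub_eq_add_neg]
  have h4 : J x + (RCLike.I : ℂ) • J y = J (x - (RCLike.I : ℂ) • y) := by
    rw [map_sub, map_smulₛₗ]; simp [sub_eq_add_neg]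
  rw [h1, h2, h3, h4]
  simp only [LinearIsometryEquiv.norm_map]
  simp only [map_div₀, map_add, map_sub, map_mul, map_pow, RCLike.conj_ofReal, RCLike.conj_I,
    map_ofNat]
  ring

namespace Rep

variable (r : Rep K H)

theorem π_mul (g h : K) (x : H) : r.π (g * h) x = r.π g (r.π h x) := by rw [map_mul]; rfl

@[simp] theorem π_one (x : H) : r.π 1 x = x := by rw [map_one]; rfl

@[simp] theorem π_inv_π (g : K) (x : H) : r.π g⁻¹ (r.π g x) = x := by
  rw [← π_mul, inv_mul_cancel, π_one]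

@[simp] theorem π_π_inv (g : K) (x : H) : r.π g (r.π g⁻¹ x) = x := by
  rw [← π_mul, mul_inv_cancel, π_one]

theorem inner_π (g : K) (x y : H) : ⟪x, r.π g y⟫_ℂ = ⟪r.π g⁻¹ x, y⟫_ℂ := by
  rw [← (r.π g).inner_map_map (r.π g⁻¹ x), π_π_inv]

theorem inner_J (x y : H) : ⟪r.J x, r.J y⟫_ℂ = ⟪y, x⟫_ℂ := inner_conj r.J x y

theorem J_real_smul (c : ℝ) (x : H) : r.J ((c : ℂ) • x) = (c : ℂ) • r.J x := by
  rw [map_smulₛₗ]; simp

/-- pull back along a homomorphism -/
def comap (φ : K' →* K) : Rep K' H where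
  π := r.π.comp φ
  J := r.J
  JJ := r.JJ
  Jπ g := r.Jπ (φ g)

/-- energy -/
def en (S : Finset K) (x : H) : ℝ := ∑ s ∈ S, ‖r.π s x - x‖ ^ 2

/-- divergence of a family -/
def dv (S : Finset K) (b : K → H) : H := ∑ s ∈ S, (r.π s⁻¹ (b s) - b s)

/-- Laplacian -/
def L (S : Finset K) (x : H) : H := r.dv S fun s => r.π s x - x

variable (S : Finset K)

theorem en_nonneg (x : H) : 0 ≤ r.en S x := Finset.sum_nonneg fun _ _ => sq_nonneg _

theorem inner_dv (b : K → H) (x : H) :
    ⟪r.dv S b, x⟫_ℂ = ∑ s ∈ S, ⟪b s, r.π s x - x⟫_ℂ := by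
  simp only [dv, sum_inner, inner_sub_left, inner_sub_right, r.inner_π]

theorem sum_norm_add (b : K → H) (x : H) : ∑ s ∈ S, ‖b s + (r.π s x - x)‖ ^ 2 =
    ∑ s ∈ S, ‖b s‖ ^ 2 + 2 * (⟪r.dv S b, x⟫_ℂ).re + r.en S x := by
  rw [inner_dv, Complex.re_sum, en, Finset.mul_sum, ← Finset.sum_add_distrib,
    ← Finset.sum_add_distrib]
  exact Finset.sum_congr rfl fun s _ => norm_add_sq (𝕜 := ℂ) _ _

theorem norm_sub_le (g : K) (x : H) : ‖r.π g x - x‖ ≤ 2 * ‖x‖ := by
  have := _root_.norm_sub_le (r.π g x) x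
  rw [LinearIsometryEquiv.norm_map] at this
  linarith

theorem en_le (x : H) : r.en S x ≤ 4 * S.card * ‖x‖ ^ 2 := by
  calc _ ≤ ∑ _s ∈ S, (2 * ‖x‖) ^ 2 := Finset.sum_le_sum fun s _ =>
        pow_le_pow_left₀ (norm_nonneg _) (r.norm_sub_le s x) 2
    _ = _ := by rw [Finset.sum_const, nsmul_eq_mul]; ring

theorem norm_L_sq (x : H) : ‖r.L S x‖ ^ 2 ≤ 4 * S.card * r.en S x := by
  have h1 : ‖r.L S x‖ ≤ ∑ s ∈ S, 2 * ‖r.π s x - x‖ :=
    (norm_sum_le _ _).trans (Finset.sum_le_sum fun s _ => r.norm_sub_le _ _)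
  calc _ ≤ (∑ s ∈ S, 2 * ‖r.π s x - x‖) ^ 2 := pow_le_pow_left₀ (norm_nonneg _) h1 2
    _ ≤ S.card * ∑ s ∈ S, (2 * ‖r.π s x - x‖) ^ 2 := sq_sum_le_card_mul_sum_sq
    _ = _ := by simp only [en, mul_pow, ← Finset.mul_sum]; ring

theorem en_smul (c : ℝ) (x : H) : r.en S ((c : ℂ) • x) = c ^ 2 * r.en S x := by
  simp only [en, map_smul, ← smul_sub, norm_smul, mul_pow, Finset.mul_sum, Complex.norm_real,
    Real.norm_eq_abs, sq_abs]

theorem L_smul (c : ℂ) (x : H) : r.L S (c • x) = c • r.L S x := by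
  simp only [L, dv, map_smul, map_sub, smul_sub, Finset.smul_sum]

theorem J_L (x : H) : r.J (r.L S x) = r.L S (r.J x) := by
  simp only [L, dv, map_sum, map_sub, r.Jπ]

theorem en_add (x y : H) :
    r.en S (x + y) = r.en S x + 2 * (⟪r.L S x, y⟫_ℂ).re + r.en S y := by
  rw [L, en, en, ← sum_norm_add]
  refine Finset.sum_congr rfl fun s _ => ?_
  rw [map_add]
  congr 2
  abel

theorem continuous_en : Continuous (r.en S) := by
  unfold en
  fun_prop

theorem bound (hS : Subgroup.closure (S : Set K) = ⊤) (g : K) :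
    ∃ C, ∀ x, ‖r.π g x - x‖ ≤ C * √(r.en S x) := by
  have hg : g ∈ Subgroup.closure (S : Set K) := hS ▸ Subgroup.mem_top g
  induction hg using Subgroup.closure_induction with
  | mem s hs =>
    refine ⟨1, fun x => ?_⟩
    rw [one_mul]
    exact Real.le_sqrt_of_sq_le (Finset.single_le_sum (f := fun s => ‖r.π s x - x‖ ^ 2)
      (fun _ _ => sq_nonneg _) hs)
  | one => exact ⟨0, fun x => by simp⟩
  | mul g h _ _ hg hh =>
    obtain ⟨C, hC⟩ := hg
    obtain ⟨D, hD⟩ := hh
    refine ⟨C + D, fun x => ?_⟩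
    have : r.π (g * h) x - x = (r.π g x - x) + r.π g (r.π h x - x) := by
      rw [π_mul, map_sub]; abel
    rw [this, add_mul]
    refine (norm_add_le _ _).trans (add_le_add (hC x) ?_)
    rw [LinearIsometryEquiv.norm_map]
    exact hD x
  | inv g _ hg =>
    obtain ⟨C, hC⟩ := hg
    refine ⟨C, fun x => ?_⟩
    have : r.π g⁻¹ x - x = -r.π g⁻¹ (r.π g x - x) := by
      rw [map_sub, π_inv_π]; abel
    rw [this, norm_neg, LinearIsometryEquiv.norm_map]
    exact hC x

/-- a lower bound for the Laplacian gives a spectral gap -/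
theorem gap [CompleteSpace H] (h0 : ∀ x, r.en S x = 0 → x = 0) {ε : ℝ} (hε : 0 < ε)
    (h : ∀ x, r.J x = x → ε * r.en S x ≤ ‖r.L S x‖ ^ 2) :
    ∃ C, ∀ x, r.J x = x → ‖x‖ ≤ C * √(r.en S x) := by
  rcases S.eq_empty_or_nonempty with rfl | hne
  · exact ⟨0, fun x _ => by rw [h0 x (by simp [en])]; simp⟩
  set N : ℝ := 4 * S.card with hN
  have hN0 : 0 < N := by
    have : (0 : ℝ) < S.card := by exact_mod_cast hne.card_pos
    positivity
  set θ : ℝ := √(max (1 - ε / N) 0) with hθ
  have hθ1 : θ < 1 := by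
    rw [hθ, Real.sqrt_lt' one_pos, one_pow]
    exact max_lt (by have := div_pos hε hN0; linarith) one_pos
  have hθ0 : 0 ≤ θ := Real.sqrt_nonneg _
  let P : H → H := fun x => x + ((-N⁻¹ : ℝ) : ℂ) • r.L S x
  have hPJ : ∀ x, r.J x = x → r.J (P x) = P x := fun x hx => by
    simp only [P, map_add, J_real_smul, J_L, hx]
  have hPe : ∀ x, r.J x = x → √(r.en S (P x)) ≤ θ * √(r.en S x) := by
    intro x hx
    rw [hθ, ← Real.sqrt_mul (le_max_right _ _)]
    apply Real.sqrt_le_sqrt
    have h1 := r.en_add S x (((-N⁻¹ : ℝ) : ℂ) • r.L S x)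
    rw [en_smul, inner_smul_right, Complex.re_ofReal_mul] at h1
    have h2 : (⟪r.L S x, r.L S x⟫_ℂ).re = ‖r.L S x‖ ^ 2 := inner_self_eq_norm_sq (𝕜 := ℂ) _
    have h3 := r.en_le S (r.L S x)
    rw [← hN] at h3
    have h4 : (-N⁻¹) ^ 2 * r.en S (r.L S x) ≤ N⁻¹ * ‖r.L S x‖ ^ 2 := by
      calc _ ≤ (-N⁻¹) ^ 2 * (N * ‖r.L S x‖ ^ 2) := mul_le_mul_of_nonneg_left h3 (sq_nonneg _)
        _ = _ := by field_simp
    have h5 : N⁻¹ * (ε * r.en S x) ≤ N⁻¹ * ‖r.L S x‖ ^ 2 :=
      mul_le_mul_of_nonneg_left (h x hx) (inv_pos.2 hN0).le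
    have h6 : (1 - ε / N) * r.en S x ≤ max (1 - ε / N) 0 * r.en S x :=
      mul_le_mul_of_nonneg_right (le_max_left _ _) (r.en_nonneg S x)
    have h7 : (1 - ε / N) * r.en S x = r.en S x - N⁻¹ * (ε * r.en S x) := by ring
    change r.en S (x + _) ≤ _
    rw [h1, h2]
    linarith
  have hPd : ∀ x, dist x (P x) ≤ N⁻¹ * √N * √(r.en S x) := by
    intro x
    rw [dist_self_add_right, norm_smul, Complex.norm_real, norm_neg,
      Real.norm_of_nonneg (inv_pos.2 hN0).le, mul_assoc, ← Real.sqrt_mul hN0.le]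
    exact mul_le_mul_of_nonneg_left (Real.le_sqrt_of_sq_le (r.norm_L_sq S x)) (inv_pos.2 hN0).le
  refine ⟨N⁻¹ * √N / (1 - θ), fun x hx => ?_⟩
  have hJ : ∀ k, r.J (P^[k] x) = P^[k] x := fun k => by
    induction k with
    | zero => exact hx
    | succ k ih => rw [Function.iterate_succ_apply']; exact hPJ _ ih
  have he : ∀ k, √(r.en S (P^[k] x)) ≤ √(r.en S x) * θ ^ k := fun k => by
    induction k with
    | zero => simp
    | succ k ih =>
      rw [Function.iterate_succ_apply', pow_succ]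
      refine (hPe _ (hJ k)).trans ?_
      nlinarith [mul_le_mul_of_nonneg_left ih hθ0]
  have hd : ∀ k, dist (P^[k] x) (P^[k + 1] x) ≤ (N⁻¹ * √N * √(r.en S x)) * θ ^ k := fun k => by
    rw [Function.iterate_succ_apply', mul_assoc]
    exact (hPd _).trans (mul_le_mul_of_nonneg_left (he k) (by positivity))
  obtain ⟨y, hy⟩ := cauchySeq_tendsto_of_complete (cauchySeq_of_le_geometric θ _ hθ1 hd)
  have hy0 : y = 0 := by
    apply h0
    have h1 : Tendsto (fun k => √(r.en S (P^[k] x))) atTop (𝓝 √(r.en S y)) :=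
      ((Real.continuous_sqrt.comp (r.continuous_en S)).tendsto y).comp hy
    have h2 : Tendsto (fun k => √(r.en S x) * θ ^ k) atTop (𝓝 (√(r.en S x) * 0)) :=
      (tendsto_pow_atTop_nhds_zero_of_lt_one hθ0 hθ1).const_mul _
    have h3 := le_of_tendsto_of_tendsto' h1 h2 he
    rw [mul_zero] at h3
    exact le_antisymm (Real.sqrt_eq_zero'.1 (le_antisymm h3 (Real.sqrt_nonneg _)))
      (r.en_nonneg S y)
  have := dist_le_of_le_geometric_of_tendsto₀ θ _ hθ1 hd hy
  rw [hy0, Function.iterate_zero_apply, dist_zero_right] at this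
  refine this.trans_eq ?_
  ring

/-- the diagonal representation on a mean square space -/
def ms {Ω : Type*} (μ : Mn Ω) : Rep K (Ms μ H) where
  π := MonoidHom.mk' (fun g => map (inv_refl μ) fun _ => r.π g) fun g h => by
    ext x
    refine induction μ (P := fun x => map (inv_refl μ) (fun _ => r.π (g * h)) x =
      map (inv_refl μ) (fun _ => r.π g) (map (inv_refl μ) (fun _ => r.π h) x))
      (isClosed_eq (by fun_prop) (by fun_prop)) (fun u => ?_) x
    simp only [map_i]
    congr 1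
    ext ω
    simp
  J := map (inv_refl μ) fun _ => r.J
  JJ x := by
    refine induction μ (P := fun x => map (inv_refl μ) (fun _ => r.J)
      (map (inv_refl μ) (fun _ => r.J) x) = x)
      (isClosed_eq (by fun_prop) (by fun_prop)) (fun u => ?_) x
    simp only [map_i]
    congr 1
    ext ω
    simp [r.JJ]
  Jπ g x := by
    refine induction μ (P := fun x => map (inv_refl μ) (fun _ => r.J)
      (map (inv_refl μ) (fun _ => r.π g) x) =
      map (inv_refl μ) (fun _ => r.π g) (map (inv_refl μ) (fun _ => r.J) x))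
      (isClosed_eq (by fun_prop) (by fun_prop)) (fun u => ?_) x
    simp only [map_i]
    congr 1
    ext ω
    simp [r.Jπ]

theorem ms_π {Ω : Type*} (μ : Mn Ω) (g : K) (u : Li Ω H) :
    (r.ms μ).π g (i μ u) = i μ (lm (Equiv.refl Ω) (fun _ => r.π g) u) :=
  map_i (inv_refl μ) _ u

theorem ms_J {Ω : Type*} (μ : Mn Ω) (u : Li Ω H) :
    (r.ms μ).J (i μ u) = i μ (lm (Equiv.refl Ω) (fun _ => r.J) u) :=
  map_i (inv_refl μ) _ u

end Rep

namespace Act

variable (a : Act K H)

/-- the affine action -/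
def α (g : K) (x : H) : H := a.π g x + a.b g

theorem b_one : a.b 1 = 0 := by
  have := a.coc 1 1
  rw [mul_one, a.toRep.π_one] at this
  simpa using this

theorem α_mul (g h : K) (x : H) : a.α (g * h) x = a.α g (a.α h x) := by
  simp only [α, a.coc, a.toRep.π_mul, map_add]; abel

theorem α_one (x : H) : a.α 1 x = x := by simp [α, a.b_one]

theorem α_sub (g : K) (x y : H) : a.α g x - a.α g y = a.π g (x - y) := by
  simp only [α, map_sub]; abel

theorem J_α (g : K) (x : H) : a.J (a.α g x) = a.α g (a.J x) := by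
  simp only [α, map_add, a.Jπ, a.Jb]

/-- no almost fixed point -/
def NAF : Prop := ∃ (S : Finset K) (c : ℝ), 0 < c ∧ ∀ x, ∃ s ∈ S, c ≤ ‖a.α s x - x‖

/-- pull back along a homomorphism -/
def comap (φ : K' →* K) : Act K' H where
  toRep := a.toRep.comap φ
  b g := a.b (φ g)
  Jb g := a.Jb (φ g)
  coc g h := by rw [map_mul, a.coc]; rfl

@[simp] theorem comap_π (φ : K' →* K) (g : K') : (a.comap φ).π g = a.π (φ g) := rfl
@[simp] theorem comap_b (φ : K' →* K) (g : K') : (a.comap φ).b g = a.b (φ g) := rfl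
@[simp] theorem comap_J (φ : K' →* K) : (a.comap φ).J = a.J := rfl
@[simp] theorem comap_α (φ : K' →* K) (g : K') (x : H) : (a.comap φ).α g x = a.α (φ g) x := rfl

theorem NAF.comap {a : Act K H} (h : a.NAF) {φ : K' →* K} (hφ : Function.Surjective φ) :
    (a.comap φ).NAF := by
  classical
  obtain ⟨S, c, hc, h⟩ := h
  refine ⟨S.image (Function.surjInv hφ), c, hc, fun x => ?_⟩
  obtain ⟨s, hs, h1⟩ := h x
  exact ⟨_, Finset.mem_image_of_mem _ hs, by rwa [comap_α, Function.surjInv_eq hφ]⟩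

end Act

/-- the mean given by a free ultrafilter on `ℕ` -/
def mU : Mn ℕ := ⟨fun f => ulim (hyperfilter ℕ) fun k => f k,
  isMean_ulim (m := fun k f => f k) _ fun _ =>
    ⟨fun _ _ _ _ => rfl, fun _ _ _ => rfl, fun _ _ h => h _, rfl⟩⟩

theorem mU_eq {f : ℕ → ℝ} {c : ℝ} (h : Tendsto f atTop (𝓝 c)) : mU.m f = c :=
  ulim_eq _ (h.mono_left Nat.hyperfilter_le_atTop)

theorem mean_sum {Ω ι : Type*} (μ : Mn Ω) (T : Finset ι) {f : ι → Ω → ℝ} (hf : ∀ j, Bdd (f j)) :
    Bdd (fun ω => ∑ j ∈ T, f j ω) ∧ μ.m (fun ω => ∑ j ∈ T, f j ω) = ∑ j ∈ T, μ.m (f j) := by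
  classical
  induction T using Finset.induction_on with
  | empty => exact ⟨by simpa using Bdd.const 0, by simpa using μ.is.zero⟩
  | insert j T hj ih =>
    simp only [Finset.sum_insert hj]
    exact ⟨(hf j).add ih.1, by rw [← ih.2]; exact μ.is.add _ _ (hf j) ih.1⟩

/-- almost harmonic vectors give an action without almost fixed points -/
theorem act_of_seq (r : Rep K H) {S : Finset K} (hS : Subgroup.closure (S : Set K) = ⊤)
    {ξ : ℕ → H} (hJ : ∀ k, r.J (ξ k) = ξ k) (h1 : ∀ k, r.en S (ξ k) = 1)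
    (h0 : Tendsto (fun k => ‖r.L S (ξ k)‖ ^ 2) atTop (𝓝 0)) :
    ∃ a : Act K (Ms mU H), a.NAF := by
  have hb : ∀ g, ∃ C, ∀ k, ‖r.π g (ξ k) - ξ k‖ ≤ C := fun g => by
    obtain ⟨C, hC⟩ := r.bound S hS g
    exact ⟨C, fun k => by simpa [h1 k] using hC (ξ k)⟩
  let β : K → Li ℕ H := fun g => mk (fun k => r.π g (ξ k) - ξ k) (hb g)
  let a : Act K (Ms mU H) :=
    { toRep := r.ms mU
      b := fun g => i mU (β g)
      Jb := fun g => by
        rw [r.ms_J]
        congr 1
        ext k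
        simp [β, r.Jπ, hJ]
      coc := fun g h => by
        rw [r.ms_π, ← map_add]
        congr 1
        ext k
        simp [β] }
  have hne : S.Nonempty := by
    rcases S.eq_empty_or_nonempty with rfl | h
    · simpa [Rep.en] using h1 0
    · exact h
  have hc : (0 : ℝ) < S.card := by exact_mod_cast hne.card_pos
  have e1 : ∑ s ∈ S, ‖a.b s‖ ^ 2 = 1 := by
    have := (mean_sum mU S (f := fun s k => ‖β s k‖ ^ 2) fun s => bdd_sq _).2
    simp only [a, norm_i_sq]
    rw [← this]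
    exact mU_eq (tendsto_const_nhds.congr fun k => (h1 k).symm)
  have e2 : a.toRep.dv S a.b = 0 := by
    have : a.toRep.dv S a.b = i mU (∑ s ∈ S, (lm (Equiv.refl ℕ) (fun _ => r.π s⁻¹) (β s) - β s)) := by
      simp only [Rep.dv, map_sum, map_sub, a, r.ms_π]
    rw [this, ← norm_eq_zero, ← pow_eq_zero_iff two_ne_zero, norm_i_sq]
    refine mU_eq (h0.congr fun k => ?_)
    rw [lp.coeFn_sum, Finset.sum_apply]
    rfl
  refine ⟨a, S, √(1 / S.card), Real.sqrt_pos.2 (by positivity), fun x => ?_⟩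
  have e3 := a.toRep.sum_norm_add S a.b x
  rw [e1, e2, inner_zero_left, Complex.zero_re] at e3
  have e4 := a.toRep.en_nonneg S x
  by_contra hcon
  push Not at hcon
  have : ∑ s ∈ S, ‖a.b s + (a.π s x - x)‖ ^ 2 < ∑ _s ∈ S, 1 / (S.card : ℝ) := by
    refine Finset.sum_lt_sum_of_nonempty hne fun s hs => ?_
    have h2 : a.b s + (a.π s x - x) = a.α s x - x := by simp only [Act.α]; abel
    rw [h2]
    exact (Real.lt_sqrt (norm_nonneg _)).1 (hcon s hs)
  rw [Finset.sum_const, nsmul_eq_mul, mul_one_div_cancel hc.ne'] at this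
  linarith

/-! ### the regular representation -/

open Crest.OpAlg

/-- the left regular representation -/
def reg (K : Type*) [Group K] : Rep K (ltwo K) where
  π := MonoidHom.mk' (fun g => ltwoReindex (Equiv.mulLeft g⁻¹)) fun g h => by
    ext x k
    change x ((g * h)⁻¹ * k) = x (h⁻¹ * (g⁻¹ * k))
    rw [mul_inv_rev, mul_assoc]
  J := starₗᵢ ℂ
  JJ x := star_star x
  Jπ _ _ := rfl

theorem reg_π (g : K) (x : ltwo K) (k : K) : (reg K).π g x k = x (g⁻¹ * k) := rfl

theorem hasSum_sq (x : ltwo K) : HasSum (fun k => ‖x k‖ ^ 2) (‖x‖ ^ 2) := by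
  simpa using lp.hasSum_norm (p := 2) (by norm_num) x

theorem reg_inv [Infinite K] {S : Finset K} (hS : Subgroup.closure (S : Set K) = ⊤) (x : ltwo K)
    (hx : (reg K).en S x = 0) : x = 0 := by
  have h1 : ∀ g, x g = x 1 := fun g => by
    obtain ⟨C, hC⟩ := (reg K).bound S hS g
    have := hC x
    rw [hx, Real.sqrt_zero, mul_zero, norm_le_zero_iff, sub_eq_zero] at this
    rw [← this, reg_π, inv_mul_cancel, this]
  have h2 := (hasSum_sq x).summable.tendsto_cofinite_zero
  simp only [h1] at h2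
  have h3 : ‖x 1‖ ^ 2 = 0 := tendsto_nhds_unique tendsto_const_nhds h2
  ext g
  rw [h1]
  simpa using h3

theorem reg_approx (h : R189.Amen K) (S : Finset K) {δ : ℝ} (hδ : 0 < δ) :
    ∃ x : ltwo K, (reg K).J x = x ∧ ‖x‖ = 1 ∧ (reg K).en S x ≤ S.card * δ := by
  classical
  obtain ⟨p, hp, h⟩ := h S δ hδ
  let x : ltwo K := ⟨fun k => ((√(p k) : ℝ) : ℂ), (memℓp_zero (p.hasFiniteSupport.subset (by
    intro k hk
    by_contra h0
    apply hk
    simp [Function.notMem_support.1 h0]))).of_exponent_ge zero_le_two⟩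
  have hx : ∀ k, x k = ((√(p k) : ℝ) : ℂ) := fun _ => rfl
  refine ⟨x, ?_, ?_, ?_⟩
  · ext k
    change star (x k) = x k
    rw [hx]
    exact Complex.conj_ofReal _
  · have h1 : HasSum (fun k => ‖x k‖ ^ 2) (∑ k ∈ p.support, ‖x k‖ ^ 2) :=
      hasSum_sum_of_ne_finset_zero fun k hk => by simp [hx, Finsupp.notMem_support_iff.1 hk]
    have h2 : ‖x‖ ^ 2 = 1 := by
      rw [(hasSum_sq x).unique h1, ← hp.mass, mass_eq (Finset.Subset.refl _)]
      exact Finset.sum_congr rfl fun k _ => by simp [hx, Real.sq_sqrt (hp.nonneg k)]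
    exact (pow_eq_one_iff_of_nonneg (norm_nonneg _) two_ne_zero).1 h2
  · rw [Rep.en, ← nsmul_eq_mul, ← Finset.sum_const]
    refine Finset.sum_le_sum fun s hs => le_trans ?_ (h s hs).le
    set q := p.mapDomain (fun k => s * k) - p with hq
    have hq' : ∀ k, q k = p (s⁻¹ * k) - p k := fun k => by
      have h1 : k = s * (s⁻¹ * k) := by group
      rw [hq, Finsupp.sub_apply]
      congr 1
      conv_lhs => rw [h1]
      exact Finsupp.mapDomain_apply (mul_right_injective s) _ _
    have h1 : HasSum (fun k => |q k|) (l1 q) := by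
      rw [l1_eq (Finset.Subset.refl _)]
      exact hasSum_sum_of_ne_finset_zero fun k hk => by simp [Finsupp.notMem_support_iff.1 hk]
    refine hasSum_le (fun k => ?_) (hasSum_sq _) h1
    rw [lp.coeFn_sub, Pi.sub_apply, reg_π, hx, hx, hq', ← Complex.ofReal_sub, Complex.norm_real,
      Real.norm_eq_abs, sq_abs]
    have h2 := Real.sq_sqrt (hp.nonneg (s⁻¹ * k))
    have h3 := Real.sq_sqrt (hp.nonneg k)
    have h4 := Real.sqrt_nonneg (p (s⁻¹ * k))
    have h5 := Real.sqrt_nonneg (p k)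
    rcases le_total (√(p (s⁻¹ * k))) (√(p k)) with h6 | h6
    · exact le_trans (by nlinarith) (neg_le_abs _)
    · exact le_trans (by nlinarith) (le_abs_self _)

/-- **ACT**: an infinite finitely generated amenable group has an affine isometric action on a
Hilbert space without almost fixed points -/
theorem exists_act (K : Type*) [Group K] [Infinite K] [hK : Group.FG K] (h : R189.Amen K) :
    ∃ a : Act K (Ms mU (ltwo K)), a.NAF := by
  obtain ⟨S, hS⟩ := (Group.fg_def (G := K)).1 hK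
  have key : ∀ k : ℕ, ∃ x, (reg K).J x = x ∧ (reg K).en S x = 1 ∧
      ‖(reg K).L S x‖ ^ 2 ≤ 1 / ((k : ℝ) + 1) := by
    intro k
    have : ∃ x, (reg K).J x = x ∧ ‖(reg K).L S x‖ ^ 2 < 1 / ((k : ℝ) + 1) * (reg K).en S x := by
      by_contra hcon
      push Not at hcon
      obtain ⟨C, hC⟩ := (reg K).gap S (reg_inv hS) Nat.one_div_pos_of_nat hcon
      have h1 : Tendsto (fun δ : ℝ => C * √(S.card * δ)) (𝓝[>] 0) (𝓝 (C * √(S.card * 0))) :=
        (Continuous.tendsto (by fun_prop) 0).mono_left nhdsWithin_le_nhds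
      rw [mul_zero, Real.sqrt_zero, mul_zero] at h1
      obtain ⟨δ, h2, hδ⟩ := ((h1.eventually (gt_mem_nhds one_pos)).and self_mem_nhdsWithin).exists
      obtain ⟨x, hx, h3, h4⟩ := reg_approx h S hδ
      have h5 := hC x hx
      rw [h3] at h5
      have hC0 : 0 ≤ C := by
        by_contra h6
        push Not at h6
        nlinarith [Real.sqrt_nonneg ((reg K).en S x)]
      have := mul_le_mul_of_nonneg_left (Real.sqrt_le_sqrt h4) hC0
      linarith
    obtain ⟨x, hx, h1⟩ := this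
    have he : 0 < (reg K).en S x := by
      rcases ((reg K).en_nonneg S x).eq_or_lt with h2 | h2
      · rw [← h2, mul_zero] at h1
        exact absurd h1 (not_lt.2 (sq_nonneg _))
      · exact h2
    have h2 : (√((reg K).en S x))⁻¹ ^ 2 = ((reg K).en S x)⁻¹ := by
      rw [inv_pow, Real.sq_sqrt he.le]
    refine ⟨(((√((reg K).en S x))⁻¹ : ℝ) : ℂ) • x, by rw [Rep.J_real_smul, hx], ?_, ?_⟩
    · rw [Rep.en_smul, h2, inv_mul_cancel₀ he.ne']
    · rw [Rep.L_smul, norm_smul, mul_pow, Complex.norm_real, Real.norm_eq_abs, sq_abs, h2,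
        inv_mul_le_iff₀ he, mul_comm]
      exact h1.le
  choose ξ hJ h1 h2 using key
  exact act_of_seq (reg K) hS hJ h1 (squeeze_zero (fun _ => sq_nonneg _) h2
    tendsto_one_div_add_atTop_nhds_zero_nat)

end

end Crest.Agent.X261.Rel.Act
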