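import Crest.Agent.X261.Rel.Vert
import Crest.Agent.X261.Rel85.AvgB

/-!
# X261, package REL (helper34), file `Main`: the frame, the fibre primitives and `NoFix`
-/

set_option autoImplicit false
set_option linter.unusedSectionVars false
set_option linter.dupNamespace false

open Set Filter Topology Metric Matrix MeasureTheory
open scoped ENNReal InnerProductSpace ComplexConjugate

namespace Crest.Agent.X261.Rel

open Crest.Agent.R275.Geo Crest.Agent.R275.Core144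
open Crest.Agent.R275.OmT75 (dl dj dj_congr)
open Crest.Agent.R273.UCov_914
open Crest.Agent.R273.Fock_243 (FI Gam eW iW ep)
open Crest.Agent.R281.Kd_22 (Hm)
open Crest.Agent.X261.Top (dW)
open Crest.Agent.X261.Gauss (mv dV Frm Up)
open Crest.Agent.X261.Plk (w1)
open Crest.Agent.X261.Rel.Act (Act Rep)
open Crest.Agent.X261.Rel.Ms (Mn Li Ms lm)

noncomputable section

theorem cont_lm {Ω H H' : Type*} [NormedAddCommGroup H] [NormedAddCommGroup H']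
    [InnerProductSpace ℂ H] [InnerProductSpace ℂ H'] {σ σ' : ℂ →+* ℂ} [RingHomInvPair σ σ']
    [RingHomInvPair σ' σ] (τ : Ω ≃ Ω) (U : Ω → H ≃ₛₗᵢ[σ] H') : Continuous (lm τ U) :=
  AddMonoidHomClass.continuous_of_bound (lm τ U) 1 fun u => by
    rw [one_mul]
    refine Ms.norm_le _ (norm_nonneg _) fun ω => ?_
    rw [Ms.lm_apply, LinearIsometryEquiv.norm_map]
    exact Ms.norm_apply_le u _

theorem w1_scal {n : ℕ} (τ : FI n → ℂ) (η : Fin n → ℂ) : w1 τ η = eW η *ᵥ τ := by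
  funext I
  rw [Plk.w1_dec τ (α := Unit) (l := fun _ => η) (β := fun _ => 1) (fun j => by simp) I]
  simp

section re

variable {G : Type} [Group G] {W : Type} [NormedAddCommGroup W] [InnerProductSpace ℂ W]
  (r : Rep G W) {N : Subgroup G}

theorem π_re {g : G} {ξ : W} (h : r.π g ξ = ξ) : r.π g (ξ + r.J ξ) = ξ + r.J ξ := by
  rw [map_add, ← r.Jπ, h]

/-- twice the real part -/
def re (ξ : Fx r N) : Fx r N := ⟨ξ + r.J ξ, fun g hg => π_re r (ξ.2 g hg)⟩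

theorem J_re (ξ : Fx r N) : r.J (re r ξ : W) = re r ξ := by
  change r.J (ξ + r.J ξ) = ξ + r.J ξ
  rw [map_add, r.JJ, add_comm]

theorem inner_of_re {ξ w : Fx r N} (h1 : ⟪re r ξ, w⟫_ℂ = 0) (h2 : ⟪re r (Complex.I • ξ), w⟫_ℂ = 0) :
    ⟪ξ, w⟫_ℂ = 0 := by
  change ⟪(ξ : W) + r.J ξ, (w : W)⟫_ℂ = 0 at h1
  change ⟪Complex.I • (ξ : W) + r.J (Complex.I • (ξ : W)), (w : W)⟫_ℂ = 0 at h2
  change ⟪(ξ : W), (w : W)⟫_ℂ = 0
  rw [map_smulₛₗ, inner_add_left, inner_smul_left, inner_smul_left] at h2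
  rw [inner_add_left] at h1
  simp only [Complex.conj_I, map_neg, neg_neg] at h2
  linear_combination h1 / 2 + Complex.I / 2 * h2 +
    (⟪(ξ : W), (w : W)⟫_ℂ - ⟪r.J ξ, (w : W)⟫_ℂ) / 2 * Complex.I_mul_I

end re

variable {n : ℕ} {X : Type} [TopologicalSpace X] {A : Atl n X} {G : Type} [Group G]
  {D : MonD A G} {q : ℕ} {M N : Subgroup G} [M.Normal] [N.Normal] {Z : Stp D q M}
  {H : Type} [NormedAddCommGroup H] [InnerProductSpace ℂ H] [CompleteSpace H] {a : Act M H}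
  {m : Min D Z.al a N}

namespace Av

variable (V : Av Z m)

/-- the translates of the minimizing sequence -/
def fm : Fm Z (G ⧸ M) H (Li (G ⧸ M) H) where
  J := a.J
  JW := jl a
  cont := cont_lm _ _
  ev := Rel85.evL H
  sep _ h := lp.ext (funext h)
  ev_J _ _ := rfl
  f ω k e := m.f k ((ω.out)⁻¹ • e)
  S := V.SL
  re _ _ _ := m.f_re _ _
  lim := V.lim
  hol := V.hol
  deg := V.deg
  hor := V.hor
  closed := V.closed

/-- the functional `⟪ξ, ·⟫` on bounded functions -/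
def l (ξ : Ms V.μ H) : Li (G ⧸ M) H →L[ℂ] ℂ := (innerSL ℂ ξ).comp (Ms.i V.μ)

theorem l_J {ξ : Ms V.μ H} (hξ : V.r.J ξ = ξ) (w : Li (G ⧸ M) H) :
    V.l ξ (jl a w) = conj (V.l ξ w) := by
  change ⟪ξ, Ms.i V.μ (jl a w)⟫_ℂ = conj ⟪ξ, Ms.i V.μ w⟫_ℂ
  rw [← V.r_J, inner_conj_symm, ← V.r.inner_J ξ, hξ]

theorem l_π {ξ : Ms V.μ H} {g : G} (hξ : V.r.π g ξ = ξ) (w : Li (G ⧸ M) H) :
    V.l ξ (tl a g w) = V.l ξ w := by
  change ⟪ξ, Ms.i V.μ (tl a g w)⟫_ℂ = ⟪ξ, Ms.i V.μ w⟫_ℂ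
  rw [← V.r_π, ← (V.r.π g).inner_map_map ξ (Ms.i V.μ w), hξ]

variable {V} {F : Z.Fb} (P : V.fm.Pr F)

/-- the real fibre primitive of `⟪ξ, S⟫` -/
def u (ξ : Ms V.μ H) (e : D.cov G) : ℝ := (V.l ξ (P.U e)).re

theorem u_cont (ξ : Ms V.μ H) : ContinuousOn (u P ξ) (Z.al ⁻¹' P.B) :=
  (Complex.continuous_re.comp (V.l ξ).continuous).comp_continuousOn P.continuousOn

theorem u_N (hN : ∀ g : M, (g : G) ∈ N → ∀ x, a.α g x = x) (ξ : Ms V.μ H) {g : G} (hg : g ∈ M)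
    (hg' : g ∈ N) {e : D.cov G} (he : Z.al e ∈ P.B) : u P ξ (g • e) = u P ξ e := by
  rw [u, u, P.inv hg (fun ω k y => ?_) he]
  have h := m.f_eqv k ⟨_, ‹M.Normal›.conj_mem' g hg ω.out⟩ ((ω.out)⁻¹ • y)
  rw [hN _ (‹N.Normal›.conj_mem' g hg' ω.out), smul_smul, mul_inv_cancel_right, mul_smul] at h
  exact h

theorem u_M {ξ : Ms V.μ H} {g : G} (hg : g ∈ M) (hξ : V.r.π g ξ = ξ) {e e' : D.cov G}
    (he : Z.al e ∈ P.B) (h : Z.al e' = Z.al e) :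
    u P ξ (g • e) - u P ξ e = u P ξ (g • e') - u P ξ e' := by
  have h1 := P.const hg (fun ω => g⁻¹ • ω) (fun ω => a.π (cc M g ω)) (fun ω => a.b (cc M g ω))
    (T := tl a g) (cont_lm _ _) (fun _ _ => rfl) (fun ω k y => by
      have h := m.f_eqv k (cc M g ω) (((g⁻¹ • ω).out)⁻¹ • y)
      rw [cc_coe, smul_smul, ← mul_assoc, mul_inv_cancel_right, mul_smul] at h
      exact h) he h
  have h2 := congrArg (fun w => (V.l ξ w).re) h1
  simpa only [u, map_sub, V.l_π hξ, Complex.sub_re] using h2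

theorem u_loc {ξ : Fx V.r N} (hξ : V.r.J ξ = ξ) (e : D.cov G) (he : e ∈ Z.al ⁻¹' P.B) (i : A.ι)
    (hi : D.pr e ∈ (A.e i).source) : ∃ (f : X → ℂ) (c : Cn q → ℝ) (κ : ℂ),
      Hm A f (D.pr e) ∧ ∀ᶠ x in 𝓝 (D.pr e),
        u P ξ (D.pt i (D.co i e) x) = (f x).re + c (V.Φ.a i (D.co i e) x) ∧
        (fun I => ⟪ξ, V.Φ.S i (D.co i e) x I⟫_ℂ) =
          κ • (eW (fun b => dl A i b f x) *ᵥ dW A i (V.Φ.a i (D.co i e)) x) := by
  obtain ⟨Φ, c, h1, h2⟩ := P.form he hi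
  let L : Li (G ⧸ M) H →L[ℂ] ℂ := (2 : ℂ) • V.l ξ
  refine ⟨fun x => L (Φ (A.e i x)), fun t => (V.l ξ (c t)).re, 1 / 2, Hm.of_one hi ?_, ?_⟩
  · refine ((L.analyticAt _).comp h1).congr ?_
    filter_upwards [(A.e i).eventually_right_inverse' hi] with z hz
    rw [hz, Function.comp_apply]
  rw [V.Φ_a]
  filter_upwards [h2, (A.e i).open_source.mem_nhds hi,
    ((A.e i).continuousAt hi).eventually h1.eventually_analyticAt] with x h3 h4 h5
  constructor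
  · rw [u, h3.1, map_add, map_add]
    change (_ + V.l ξ (jl a _) + _).re = ((2 : ℂ) • V.l ξ _).re + _
    rw [V.l_J hξ, two_smul]
    rfl
  · have h6 : ∀ b, dl A i b (fun x => L (Φ (A.e i x))) x =
        (2 : ℂ) • V.l ξ (dj b Φ (A.e i x)) := fun b => by
      refine (dj_congr ?_).trans
        (Rel85.dj_clm' L (h5.differentiableAt.restrictScalars ℝ) b)
      filter_upwards [(A.e i).eventually_right_inverse' h4] with z hz
      rw [hz]
    have h7 : (fun I => ⟪ξ, V.Φ.S i (D.co i e) x I⟫_ℂ) =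
        fun I => V.l ξ (V.fm.S i (D.co i e) x I) :=
      funext fun I => congrArg (fun w => ⟪(ξ : Ms V.μ H), w⟫_ℂ) (V.Φ_S i _ x h4 I)
    rw [h7, h3.2, ← w1_scal, funext h6, ← Plk.w1_smul]
    refine (Plk.w1_map (V.l ξ : Li (G ⧸ M) H →ₗ[ℂ] ℂ) _ _).trans (congrArg _ (funext fun b => ?_))
    simp

/-- the data on the big cover -/
def up (hN : ∀ g : M, (g : G) ∈ N → ∀ x, a.α g x = x) (hL : ∀ g ∈ N, Z.L g = 1)
    (hlam : ∀ g ∈ N, Z.lam g = 0 → g ∈ M)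
    (hsub : ∀ P : Subgroup G, P ≤ N → (∀ t ∈ Submodule.span ℝ (Z.lam '' P),
      Complex.I • t ∈ Submodule.span ℝ (Z.lam '' P)) → ∀ g ∈ P, Z.lam g = 0) : Up V.Φ N where
  al := Z.al
  al_eq i v x _ := by rw [V.Φ_a]; rfl
  lam := Z.lam
  al_N g hg e := by rw [Z.eqv, hL g hg]; rfl
  ρ_N g hg := LinearIsometryEquiv.ext fun ξ => Subtype.ext (by
    rw [V.Φ_ρ, Rel85.det_of_eq Z (hL g hg), one_smul]
    exact ξ.2 g hg)
  sub := hsub
  T := Z.al ⁻¹' P.B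
  T_opn := P.isOpen
  T_ne := P.ne
  T_sat e he Y _ _ h y hy := by rwa [mem_preimage, h y hy]
  Ξ := {ξ | V.r.J ξ = ξ}
  Ξ_sep w h := inner_self_eq_zero.1 (inner_of_re V.r (h _ (J_re V.r w)) (h _ (J_re V.r _)))
  prim ξ hξ := ⟨u P ξ, u_cont P ξ, fun g hg h0 _ he _ => u_N P hN ξ (hlam g hg h0) hg he,
    u_loc P hξ⟩

include P in
theorem noFix [ConnectedSpace (D.cov G)] (hN : ∀ g : M, (g : G) ∈ N → ∀ x, a.α g x = x)
    (hV : ¬ Grp.VInd (M.map (QuotientGroup.mk' N))) : V.Φ.NoFix M := by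
  intro K hK ξ hξ i v x hx I
  have sat : ∀ e ∈ Z.al ⁻¹' P.B, ∀ e', Z.al e' = Z.al e → e' ∈ Z.al ⁻¹' P.B := fun e he e' h => by
    rwa [mem_preimage, h]
  have key : ∀ ζ : Fx V.r N, (∀ g ∈ K, V.r.π g ζ = ζ) → ⟪re V.r ζ, V.Φ.S i v x I⟫_ℂ = 0 :=
    fun ζ hζ => Mp.inner_eq_zero Z F V.Φ V.Φ_a P.isOpen P.ne (fun e he => P.sub he) sat _
      (u_cont P (re V.r ζ)) hK (Mp.inv_of Z hV hK sat
        (fun g hg e he e' _ h => u_M P (hK.le hg) (π_re V.r (hζ g hg)) he h.symm)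
        fun g hg hg' e he => u_N P hN _ (hK.le hg) hg' he) (u_loc P (J_re V.r ζ)) i v x hx I
  have h1 : ∀ g ∈ K, V.r.π g ξ = ξ := fun g hg => by
    have h := V.Φ_ρ g ξ
    rw [hξ g hg, Rel85.det_of_eq Z (Z.L_M g (hK.le hg)), one_smul] at h
    exact h.symm
  refine inner_of_re V.r (key ξ h1) (key _ fun g hg => ?_)
  rw [Submodule.coe_smul, map_smul, h1 g hg]

end Av

/-- **REL** -/
theorem rel : RelStmt := by
  intro n X _ _ A G _ D hc q M N _ _ Z F H _ _ _ a m hA hN hAm hL hlam hsub hV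
  obtain ⟨e₀, he₀⟩ := F.ne
  obtain ⟨i₀, hi₀⟩ := A.cover (D.pr e₀)
  obtain ⟨V⟩ := Rel85.av n X A G D q M N Z H a m hAm hL
    ⟨i₀, D.co i₀ e₀, _, hi₀, F.reg _ _ _ hi₀ (by rwa [D.pt_co hi₀])⟩
    (vert n X A G D q M Z F H a m.f m.S m.lim m.f_re m.f_eqv hA)
  obtain ⟨P⟩ := V.fm.exists_pr F
  exact ⟨Fx V.r N, inferInstance, inferInstance, inferInstance, V.Φ,
    ⟨Av.up P hN hL hlam hsub⟩, Av.noFix P hN hV⟩

end

end Crest.Agent.X261.Rel
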