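import Crest.Agent.X261.Rel.Act
import Crest.Agent.X261.Gauss.Defs

/-!
# X261, package REL (helper34), file `Defs`: the output of FAM that REL consumes

* `aV D al`     : a global map `al : D.cov G → ℂ^q` as a family over `X`;
* `tw D al f`   : the form `∂ f ∧ τ`, `τ = d al_1 ∧ … ∧ d al_q`, as a family over `X`;
* `Lim D al f S`: the holomorphic form `S` is the local `L²` limit of `∂ f_k ∧ τ`;
* `Min D al a N`: equivariant maps `f_k`, the limit `S` and its properties.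
-/

set_option autoImplicit false
set_option linter.unusedSectionVars false
set_option linter.dupNamespace false

open Set Filter Topology Complex Matrix MeasureTheory
open scoped ENNReal InnerProductSpace

namespace Crest.Agent.X261.Rel

open Crest.Agent.R275.Geo Crest.Agent.R275.Core144
open Crest.Agent.R275.OmT75 (dl)
open Crest.Agent.R273.UCov_914
open Crest.Agent.R273.Fock_243 (FI Gam eW iW ep)
open Crest.Agent.X261.Top (dW HolV)
open Crest.Agent.X261.Gauss (mv dV)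
open Crest.Agent.X261.Rel.Act (Act)

noncomputable section

variable {n : ℕ} {X : Type} [TopologicalSpace X] {A : Atl n X} {G : Type} [Group G]
variable {q : ℕ} {H : Type} [NormedAddCommGroup H] [InnerProductSpace ℂ H]

/-- a function on the cover as a family over `X` -/
def aV {W : Type*} (D : MonD A G) (al : D.cov G → W) (i : A.ι) (v : G) (x : X) : W :=
  al (D.pt i v x)

/-- the form `∂ f ∧ τ` -/
def tw (D : MonD A G) (al : D.cov G → Cn q) (f : D.cov G → H) (i : A.ι) (v : G) (x : X)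
    (I : FI n) : H :=
  ∑ b, (eW (ep b) *ᵥ dW A i (aV D al i v) x) I • dl A i b (aV D f i v) x

/-- the holomorphic form `S` is the local `L²` limit of the forms `∂ f_k ∧ τ` -/
structure Lim (D : MonD A G) (al : D.cov G → Cn q) (f : ℕ → D.cov G → H)
    (S : A.ι → G → X → FI n → H) : Prop where
  f_sm : ∀ k, (D.atl G).Sm (f k)
  S_hol : ∀ i v I, DifferentiableOn ℂ (fun z => S i v ((A.e i).symm z) I) (A.e i).target
  lim : ∀ i v, ∀ K ⊆ (A.e i).target, IsCompact K → ∀ I, Tendsto (fun k => ∫⁻ z in K,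
    ‖tw D al (f k) i v ((A.e i).symm z) I - S i v ((A.e i).symm z) I‖ₑ ^ 2) atTop (𝓝 0)

/-- the output of FAM for the action `a` of `M` -/
structure Min (D : MonD A G) (al : D.cov G → Cn q) {M : Subgroup G} (a : Act M H)
    (N : Subgroup G) where
  f : ℕ → D.cov G → H
  S : A.ι → G → X → FI n → H
  lim : Lim D al f S
  f_re : ∀ k e, a.J (f k e) = f k e
  f_eqv : ∀ k (m : M) e, f k ((m : G) • e) = a.α m (f k e)
  S_tr : ∀ i j v, ∀ x ∈ (A.e i).source ∩ (A.e j).source,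
    S i v x = mv (Gam (Jm A i j x)ᵀ) (S j (D.c i j x * v) x)
  S_eqv : ∀ (m : M) i v, ∀ x ∈ (A.e i).source, ∀ I, S i (v * (m : G)⁻¹) x I = a.π m (S i v x I)
  S_N : ∀ g ∈ N, ∀ i v, ∀ x ∈ (A.e i).source, S i (v * g⁻¹) x = S i v x
  deg : ∀ i v, ∀ x ∈ (A.e i).source, ∀ I : FI n, I.card ≠ q + 1 → S i v x I = 0
  hor : ∀ i v, ∀ x ∈ (A.e i).source, ∀ k, mv (eW (dV A i (aV D al i v) x k)) (S i v x) = 0
  closed : ∀ i v, ∀ x ∈ (A.e i).source,
    ∑ b, mv (eW (ep b)) (fun I => dl A i b (fun y => S i v y I) x) = 0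
  /-- the fibre energy is bounded above, uniformly in the sheet -/
  up : ∀ i, ∀ z₀ ∈ (A.e i).target, ∃ V ∈ 𝓝 z₀, ∃ C : ℝ≥0∞, C < ⊤ ∧ ∀ v, ∀ K ⊆ V, IsCompact K →
    ∀ I, ∫⁻ z in K, ‖S i v ((A.e i).symm z) I‖ₑ ^ 2 ≤
      C * volume ((fun z => aV D al i v ((A.e i).symm z)) '' K)
  /-- the fibre energy is bounded below, uniformly in the translate -/
  low : (∃ i v, ∃ x ∈ (A.e i).source, S i v x ≠ 0) →
    ∃ (T : Finset (A.ι × G)) (K : A.ι → Set (Cn n)) (c : ℝ≥0∞), 0 < c ∧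
      (∀ i, IsCompact (K i) ∧ K i ⊆ (A.e i).target) ∧ ∀ g : G,
        c ≤ ∑ p ∈ T, ∑ I, ∫⁻ z in K p.1, ‖S p.1 (p.2 * g) ((A.e p.1).symm z) I‖ₑ ^ 2

end

end Crest.Agent.X261.Rel
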