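import Crest.Agent.X261.Rel.Defs

/-!
# X261, package REL (helper34), file `Stm`: the setup and the output of the averaging step

* `Stp D q M` : the holomorphic map `al` to `ℂ^q` with its affine equivariance;
* `Stp.Fb`    : regular connected fibres over an open set, compact modulo `M`;
* `Av`        : the form with values in `ℓ^∞(G/M, H)`, the induced representation, the frame;
* `AvStmt`, `RelStmt`.
-/

set_option autoImplicit false
set_option linter.unusedSectionVars false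
set_option linter.dupNamespace false

open Set Filter Topology Complex Matrix MeasureTheory
open scoped ENNReal InnerProductSpace

namespace Crest.Agent.X261.Rel

open Crest.Agent.R275.Geo Crest.Agent.R275.Core144
open Crest.Agent.R275.OmT75 (dl)
open Crest.Agent.R273.UCov_914
open Crest.Agent.R273.Fock_243 (FI Gam eW iW ep)
open Crest.Agent.X261.Top (dW HolV)
open Crest.Agent.X261.Gauss (mv dV Frm Up)
open Crest.Agent.X261.Rel.Act (Act Rep)
open Crest.Agent.X261.Rel.Ms (Mn Li Ms lm)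

noncomputable section

variable {n : ℕ} {X : Type} [TopologicalSpace X] {A : Atl n X} {G : Type} [Group G]
variable {q : ℕ} {H : Type} [NormedAddCommGroup H] [InnerProductSpace ℂ H]

/-- the map to `ℂ^q` -/
structure Stp (D : MonD A G) (q : ℕ) (M : Subgroup G) where
  al : D.cov G → Cn q
  L : G →* (Cn q →L[ℂ] Cn q)
  lam : G → Cn q
  hol : ∀ p, DifferentiableOn ℂ (fun z => al (((D.atl G).e p).symm z)) ((D.atl G).e p).target
  eqv : ∀ g e, al (g • e) = L g (al e) + lam g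
  det : ∀ g, ‖(L g).det‖ = 1
  L_M : ∀ g ∈ M, L g = 1
  lam_M : ∀ g ∈ M, lam g = 0

variable {D : MonD A G} {M : Subgroup G}

/-- regular connected fibres over an open set, compact modulo `M` -/
structure Stp.Fb (Z : Stp D q M) where
  B : Set (Cn q)
  opn : IsOpen B
  ne : ∃ e, Z.al e ∈ B
  conn : ∀ t ∈ B, IsPreconnected (Z.al ⁻¹' {t})
  reg : ∀ i v, ∀ x ∈ (A.e i).source, Z.al (D.pt i v x) ∈ B → dW A i (aV D Z.al i v) x ≠ 0
  cpt : ∀ t ∈ B, ∃ C : Set (D.cov G), IsCompact C ∧ ∀ e, Z.al e = t → ∃ m ∈ M, m • e ∈ C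

/-- the cocycle of the induced representation -/
def cc (M : Subgroup G) (g : G) (ω : G ⧸ M) : M :=
  ⟨(ω.out)⁻¹ * (g * (g⁻¹ • ω).out), QuotientGroup.eq.1 (by
    rw [QuotientGroup.out_eq', ← smul_eq_mul, ← MulAction.Quotient.smul_coe,
      QuotientGroup.out_eq', smul_inv_smul])⟩

theorem cc_coe (g : G) (ω : G ⧸ M) : (cc M g ω : G) = (ω.out)⁻¹ * (g * (g⁻¹ • ω).out) := rfl

/-- the action of `G` on bounded functions -/
def tl (a : Act M H) (g : G) : Li (G ⧸ M) H ≃ₗ[ℂ] Li (G ⧸ M) H :=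
  lm (MulAction.toPerm g⁻¹) fun ω => a.π (cc M g ω)

/-- the conjugation of bounded functions -/
def jl (a : Act M H) : Li (G ⧸ M) H ≃ₗ⋆[ℂ] Li (G ⧸ M) H := lm (Equiv.refl _) fun _ => a.J

/-- vectors fixed by `N` -/
def Fx {W : Type} [NormedAddCommGroup W] [InnerProductSpace ℂ W] (r : Rep G W) (N : Subgroup G) :
    Submodule ℂ W where
  carrier := {ξ | ∀ g ∈ N, r.π g ξ = ξ}
  add_mem' ha hb g hg := by rw [map_add, ha g hg, hb g hg]
  zero_mem' g _ := map_zero _
  smul_mem' c _ ha g hg := by rw [map_smul, ha g hg]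

instance {W : Type} [NormedAddCommGroup W] [InnerProductSpace ℂ W] [CompleteSpace W]
    (r : Rep G W) (N : Subgroup G) : CompleteSpace (Fx r N) := by
  have h : IsClosed (Fx r N : Set W) := by
    have : (Fx r N : Set W) = ⋂ g ∈ N, {ξ | r.π g ξ = ξ} := by
      ext ξ; simp only [mem_iInter]; rfl
    rw [this]
    exact isClosed_biInter fun g _ => isClosed_eq (r.π g).continuous continuous_id
  exact h.completeSpace_coe

/-- the output of the averaging step -/
structure Av (Z : Stp D q M) {a : Act M H} {N : Subgroup G} (m : Min D Z.al a N) where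
  μ : Mn (G ⧸ M)
  SL : A.ι → G → X → FI n → Li (G ⧸ M) H
  SL_eq : ∀ i v, ∀ x ∈ (A.e i).source, ∀ I ω,
    SL i v x I ω = (Z.L ω.out).det • m.S i (v * ω.out) x I
  hol : ∀ i v I, DifferentiableOn ℂ (fun z => SL i v ((A.e i).symm z) I) (A.e i).target
  deg : ∀ i v, ∀ x ∈ (A.e i).source, ∀ I : FI n, I.card ≠ q + 1 → SL i v x I = 0
  hor : ∀ i v, ∀ x ∈ (A.e i).source, ∀ k, mv (eW (dV A i (aV D Z.al i v) x k)) (SL i v x) = 0
  closed : ∀ i v, ∀ x ∈ (A.e i).source,
    ∑ b, mv (eW (ep b)) (fun I => dl A i b (fun y => SL i v y I) x) = 0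
  lim : ∀ ω : G ⧸ M,
    Lim D Z.al (fun k e => m.f k ((ω.out)⁻¹ • e)) fun i v x I => SL i v x I ω
  r : Rep G (Ms μ H)
  r_π : ∀ g u, r.π g (Ms.i μ u) = Ms.i μ (tl a g u)
  r_J : ∀ u, r.J (Ms.i μ u) = Ms.i μ (jl a u)
  Φ : Frm D q (Fx r N)
  Φ_a : Φ.a = aV D Z.al
  Φ_S : ∀ i v, ∀ x ∈ (A.e i).source, ∀ I, (Φ.S i v x I : Ms μ H) = Ms.i μ (SL i v x I)
  Φ_ρ : ∀ g ξ, (Φ.ρ g ξ : Ms μ H) = (Z.L g).det • r.π g ξ

/-- AVG -/
def AvStmt : Prop :=
  ∀ (n : ℕ) (X : Type) [TopologicalSpace X] (A : Atl n X) (G : Type) [Group G] (D : MonD A G)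
    (q : ℕ) (M N : Subgroup G) [M.Normal] [N.Normal] (Z : Stp D q M) (H : Type)
    [NormedAddCommGroup H] [InnerProductSpace ℂ H] [CompleteSpace H] (a : Act M H)
    (m : Min D Z.al a N), R189.Amen (G ⧸ M) → (∀ g ∈ N, Z.L g = 1) →
    (∃ i v, ∃ x ∈ (A.e i).source, dW A i (aV D Z.al i v) x ≠ 0) →
    (∃ i v, ∃ x ∈ (A.e i).source, m.S i v x ≠ 0) → Nonempty (Av Z m)

/-- VERT: the limit form of an action without almost fixed point does not vanish -/
def VertStmt : Prop :=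
  ∀ (n : ℕ) (X : Type) [TopologicalSpace X] (A : Atl n X) (G : Type) [Group G] (D : MonD A G)
    (q : ℕ) (M : Subgroup G) (Z : Stp D q M) (_ : Z.Fb) (H : Type)
    [NormedAddCommGroup H] [InnerProductSpace ℂ H] [CompleteSpace H] (a : Act M H)
    (f : ℕ → D.cov G → H) (S : A.ι → G → X → FI n → H), Lim D Z.al f S →
    (∀ k e, a.J (f k e) = f k e) → (∀ k (m : M) e, f k ((m : G) • e) = a.α m (f k e)) → a.NAF →
    ∃ i v, ∃ x ∈ (A.e i).source, S i v x ≠ 0

/-- REL: the frame, the fibre primitives and `NoFix` -/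
def RelStmt : Prop :=
  ∀ (n : ℕ) (X : Type) [TopologicalSpace X] [T2Space X] (A : Atl n X) (G : Type) [Group G]
    (D : MonD A G), ConnectedSpace (D.cov G) →
    ∀ (q : ℕ) (M N : Subgroup G) [M.Normal] [N.Normal] (Z : Stp D q M) (_ : Z.Fb) (H : Type)
    [NormedAddCommGroup H] [InnerProductSpace ℂ H] [CompleteSpace H] (a : Act M H),
    Min D Z.al a N → a.NAF → (∀ m : M, (m : G) ∈ N → ∀ x, a.α m x = x) →
    R189.Amen (G ⧸ M) → (∀ g ∈ N, Z.L g = 1) → (∀ g ∈ N, Z.lam g = 0 → g ∈ M) →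
    (∀ P : Subgroup G, P ≤ N → (∀ t ∈ Submodule.span ℝ (Z.lam '' P),
      I • t ∈ Submodule.span ℝ (Z.lam '' P)) → ∀ g ∈ P, Z.lam g = 0) →
    ¬ Grp.VInd (M.map (QuotientGroup.mk' N)) →
    ∃ (W : Type) (_ : NormedAddCommGroup W) (_ : InnerProductSpace ℂ W) (_ : CompleteSpace W)
      (Φ : Frm D q W), Nonempty (Up Φ N) ∧ Φ.NoFix M

end

end Crest.Agent.X261.Rel
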