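import Crest.Agent.X261.Rel.Prim
import Crest.Agent.X261.Rel85.Nl

/-!
# X261, package REL (helper36), file `Null`: `f_k - 2 Re Φ` is asymptotically basic

* `Box.lint_s`, `Box.lint_symm` : change of variables between the chart and the box;
* `pprod`, `cont_avg`           : Poincaré inequality along the second factor of a product;
* `Box.null`.
-/

set_option autoImplicit false
set_option linter.unusedSectionVars false

open Set Filter Topology Metric Matrix MeasureTheory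
open scoped ENNReal NNReal ComplexConjugate

noncomputable section

namespace Crest.Agent.X261.Rel.Bx

open Crest.Agent.R275.Geo (Cn dbj)
open Crest.Agent.R275.OmT75 (dj dj_congr expand_fderiv)
open Crest.Agent.R273.Fock_243 (FI eW iW ep)
open Crest.Agent.X261.Plk

theorem lip_of_an {E F : Type*} [NormedAddCommGroup E] [NormedSpace ℂ E] [NormedAddCommGroup F]
    [NormedSpace ℂ F] [CompleteSpace F] {f : E → F} {K : Set E} (hK : IsCompact K)
    (hf : AnalyticOnNhd ℂ f K) : ∃ L, LipschitzOnWith L f K := by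
  refine LocallyLipschitzOn.exists_lipschitzOnWith_of_compact hK fun x hx => ?_
  obtain ⟨L, t, ht, h⟩ := ((hf x hx).contDiffAt (n := 1)).exists_lipschitzOnWith
  exact ⟨L, t, nhdsWithin_le_nhds ht, h⟩

section prod

variable {T K H : Type*} [NormedAddCommGroup T] [NormedSpace ℝ T] [FiniteDimensional ℝ T]
  [MeasurableSpace T] [BorelSpace T] [NormedAddCommGroup K] [NormedSpace ℝ K]
  [FiniteDimensional ℝ K] [MeasurableSpace K] [BorelSpace K]
  (μ : Measure T) [μ.IsAddHaarMeasure] (ν : Measure K) [ν.IsAddHaarMeasure]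
  [NormedAddCommGroup H] [NormedSpace ℝ H] [CompleteSpace H]

theorem cont_avg {O : Set T} (hO : IsOpen O) {ρ : ℝ} (hρ : 0 < ρ) {g : T × K → H}
    (hg : ContinuousOn g (O ×ˢ ball 0 ρ)) :
    ContinuousOn (fun t => ⨍ x in ball (0 : K) (ρ / 2), g (t, x) ∂ν) O := by
  intro t ht
  refine ContinuousAt.continuousWithinAt ?_
  have hb : closedBall (0 : K) (ρ / 2) ⊆ ball 0 ρ := closedBall_subset_ball (half_lt_self hρ)
  have hb' : ball (0 : K) (ρ / 2) ⊆ ball 0 ρ := ball_subset_closedBall.trans hb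
  obtain ⟨ε, hε, h1⟩ := nhds_basis_closedBall.mem_iff.1 (hO.mem_nhds ht)
  obtain ⟨M, hM⟩ := ((isCompact_closedBall t ε).prod
    (isCompact_closedBall (0 : K) (ρ / 2))).exists_bound_of_continuousOn
      (hg.mono (prod_mono h1 hb))
  simp only [setAverage_eq]
  refine ContinuousAt.const_smul ?_ _
  refine continuousAt_of_dominated (bound := fun _ => M) ?_ ?_ ?_ ?_
  · filter_upwards [hO.mem_nhds ht] with y hy
    exact ContinuousOn.aestronglyMeasurable
      (hg.comp (by fun_prop) fun x hx => ⟨hy, hb' hx⟩) measurableSet_ball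
  · filter_upwards [closedBall_mem_nhds t hε] with y hy
    filter_upwards [ae_restrict_mem measurableSet_ball] with x hx
    exact hM (y, x) ⟨hy, ball_subset_closedBall hx⟩
  · exact integrableOn_const measure_ball_lt_top.ne
  · filter_upwards [ae_restrict_mem measurableSet_ball] with x hx
    exact (hg.continuousAt ((hO.prod isOpen_ball).mem_nhds ⟨ht, hb' hx⟩)).comp
      (f := fun y => (y, x)) (by fun_prop)

theorem pprod {O : Set T} (hO : IsOpen O) {ρ : ℝ} (hρ : 0 < ρ) {g : T × K → H}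
    (hg : ContDiffOn ℝ 1 g (O ×ˢ ball 0 ρ)) {h : T × K → ℝ≥0∞}
    (hm : AEMeasurable h ((μ.prod ν).restrict (O ×ˢ ball 0 ρ)))
    (hh : ∀ u ∈ O ×ˢ ball (0 : K) ρ, ‖fderiv ℝ (fun w => g (u.1, w)) u.2‖ₑ ^ 2 ≤ h u) :
    ∫⁻ u in O ×ˢ ball 0 ρ, ‖g u - ⨍ x in ball (0 : K) (ρ / 2), g (u.1, x) ∂ν‖ₑ ^ 2 ∂μ.prod ν ≤
      Rel85.pc ν 0 ρ * ∫⁻ u in O ×ˢ ball 0 ρ, h u ∂μ.prod ν := by
  rw [setLIntegral_prod h hm, ← Measure.prod_restrict,
    ← lintegral_const_mul' _ _ (Rel85.pc_lt_top ν 0 hρ).ne]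
  refine (lintegral_prod_le _).trans (setLIntegral_mono' hO.measurableSet fun t ht => ?_)
  refine (Rel85.poin ν 0 hρ (g := fun w => g (t, w))
    (hg.comp (by fun_prop) fun w hw => ⟨ht, hw⟩)).trans ?_
  exact mul_le_mul_right
    (setLIntegral_mono' measurableSet_ball fun w hw => hh (t, w) ⟨ht, hw⟩) _

end prod

variable {n q : ℕ} {H : Type*} [NormedAddCommGroup H] [NormedSpace ℂ H]

/-- a conjugate linear isometry as a real linear map -/
def Jr (J : H ≃ₗᵢ⋆[ℂ] H) : H →L[ℝ] H :=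
  LinearMap.mkContinuous
    { toFun := J
      map_add' := J.map_add
      map_smul' := fun r x => by
        rw [RingHom.id_apply, ← Complex.coe_smul, ← Complex.coe_smul, J.map_smulₛₗ]
        simp } 1 fun x => by simp

theorem Jr_apply (J : H ≃ₗᵢ⋆[ℂ] H) (x : H) : Jr J x = J x := rfl

theorem fd_real (J : H ≃ₗᵢ⋆[ℂ] H) {f : Cn n → H} {z : Cn n} (hf : DifferentiableAt ℝ f z)
    (hJ : ∀ᶠ y in 𝓝 z, J (f y) = f y) (v : Cn n) :
    fderiv ℝ f z v = ∑ b, v b • dj b f z + J (∑ b, v b • dj b f z) := by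
  have h1 : ∀ x, J (fderiv ℝ f z x) = fderiv ℝ f z x := fun x => by
    have h2 := ((Jr J).hasFDerivAt.comp z hf.hasFDerivAt).congr_of_eventuallyEq
      (f₁ := f) (hJ.mono fun y hy => hy.symm)
    exact congrArg (fun L => L x) (h2.unique hf.hasFDerivAt)
  have h3 : ∀ b, J (dj b f z) = dbj b f z := fun b => by
    unfold dj dbj
    rw [J.map_smulₛₗ, map_sub, J.map_smulₛₗ, h1, h1]
    simp [map_ofNat]
  rw [expand_fderiv, Finset.sum_add_distrib, map_sum]
  simp only [J.map_smulₛₗ, h3]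

theorem cont_dj {f : Cn n → H} {O : Set (Cn n)} (hO : IsOpen O) (hf : ContDiffOn ℝ 1 f O)
    (b : Fin n) : ContinuousOn (fun z => dj b f z) O := by
  have h := hf.continuousOn_fderiv_of_isOpen hO le_rfl
  exact ((h.clm_apply continuousOn_const).sub
    ((h.clm_apply continuousOn_const).const_smul _)).const_smul _

theorem cont_w1 {τ : Cn n → FI n → ℂ} {η : Cn n → Fin n → H} {O : Set (Cn n)}
    (hτ : ∀ I, ContinuousOn (fun z => τ z I) O) (hη : ∀ b, ContinuousOn (fun z => η z b) O)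
    (I : FI n) : ContinuousOn (fun z => w1 (τ z) (η z) I) O :=
  continuousOn_finsetSum _ fun b _ => ContinuousOn.smul
    (f := fun z => ∑ J, (eW (ep b) : Matrix _ _ ℂ) I J * τ z J)
    (continuousOn_finsetSum _ fun J _ => continuousOn_const.mul (hτ J)) (hη b)

theorem norm_iW_le (J : FI n) : ∃ C : ℝ, 0 ≤ C ∧ ∀ (v : Cn n) (E : FI n → H),
    ‖mv (iW v.ofLp) E J‖ ≤ C * ‖v‖ * ∑ I, ‖E I‖ := by
  refine ⟨∑ b, ∑ I, ‖(iW (ep b) : Matrix _ _ ℂ) J I‖, by positivity, fun v E => ?_⟩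
  rw [mv_iW_eq_sum, Finset.sum_mul, Finset.sum_mul]
  refine norm_sum_le_of_le _ fun b _ => ?_
  rw [norm_smul, mul_comm _ ‖v‖, mul_assoc]
  refine mul_le_mul (PiLp.norm_apply_le v b) (norm_mv_le _ (fun I => ?_) J) (norm_nonneg _)
    (norm_nonneg _)
  exact Finset.single_le_sum (f := fun I => ‖E I‖) (fun _ _ => norm_nonneg _) (Finset.mem_univ I)

namespace Box

variable {a : Cn n → Cn q} {z₀ : Cn n} {U : Set (Cn n)} (B : Box a z₀ U)

theorem an_real {E F : Type*} [NormedAddCommGroup E] [NormedSpace ℂ E] [NormedAddCommGroup F]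
    [NormedSpace ℂ F] {f : E → F} {x : E} (h : AnalyticAt ℂ f x) : DifferentiableAt ℝ f x :=
  h.differentiableAt.restrictScalars ℝ

theorem finrank_eq : Module.finrank ℝ (Cn n) = Module.finrank ℝ (Cn q × Cn B.r) := by
  have hu : B.o ∈ B.s.source := B.sub (mem_closedBall_self B.pos.le)
  have hz := B.s.map_source hu
  refine le_antisymm ?_ ?_
  · exact Rel85.finrank_le_of_inv (θ := B.s.symm) (ψ := B.s) (an_real (B.an_symm _ hz))
      (an_real (B.an _ (B.s.map_target hz))) (B.s.eventually_right_inverse hz)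
  · exact Rel85.finrank_le_of_inv (θ := B.s) (ψ := B.s.symm) (an_real (B.an _ hu))
      (an_real (B.an_symm _ hz)) (B.s.eventually_left_inverse hu)

theorem haar (q r : ℕ) :
    ((volume : Measure (Cn q)).prod (volume : Measure (Cn r))).IsAddHaarMeasure :=
  Measure.prod.instIsAddHaarMeasure _ _

theorem lint_s : ∃ C : ℝ≥0∞, C ≠ ⊤ ∧ ∀ F : Cn n → ℝ≥0∞,
    ∫⁻ u in ball B.o B.ρ, F (B.s u) ∂(volume.prod volume) ≤ C * ∫⁻ z in B.W, F z := by
  have := haar q B.r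
  obtain ⟨L, hL⟩ := lip_of_an B.isCompact_K (B.an_symm.mono B.K_sub)
  obtain ⟨C, hC, h⟩ := Rel85.lint_comp_le (volume : Measure (Cn n))
    ((volume : Measure (Cn q)).prod (volume : Measure (Cn B.r))) B.finrank_eq L
  exact ⟨C, hC, h B.s B.s.symm _ measurableSet_ball (B.s.continuousOn.mono B.sub')
    (fun u hu => B.s.left_inv (B.sub' hu)) (hL.mono B.W_sub_K)⟩

theorem image_W : B.s.symm '' B.W = ball B.o B.ρ := B.s.symm_image_image_of_subset_source B.sub'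

theorem lint_symm : ∃ C : ℝ≥0∞, C ≠ ⊤ ∧ ∀ F : Cn q × Cn B.r → ℝ≥0∞,
    ∫⁻ z in B.W, F (B.s.symm z) ≤ C * ∫⁻ u in ball B.o B.ρ, F u ∂(volume.prod volume) := by
  have := haar q B.r
  obtain ⟨L, hL⟩ := lip_of_an (isCompact_closedBall B.o B.ρ) (B.an.mono B.sub)
  obtain ⟨C, hC, h⟩ := Rel85.lint_comp_le
    ((volume : Measure (Cn q)).prod (volume : Measure (Cn B.r))) (volume : Measure (Cn n))
    B.finrank_eq.symm L
  refine ⟨C, hC, fun F => ?_⟩
  have h1 := h B.s.symm B.s _ B.isOpen_W.measurableSet (B.s.continuousOn_symm.mono B.W_sub)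
    (fun z hz => B.s.right_inv (B.W_sub hz))
    (by rw [B.image_W]; exact hL.mono ball_subset_closedBall) F
  rwa [B.image_W] at h1

/-- the vertical part of `η` is bounded by `η ∧ τ` -/
theorem exists_vert : ∃ C : ℝ, 0 ≤ C ∧ ∀ u ∈ ball B.o B.ρ, ∀ (w : Cn B.r) (η : Fin n → H),
    ‖∑ b, B.V u w b • η b‖ ≤ C * (∑ I, ‖w1 (ta a (B.s u)) η I‖) * ‖w‖ := by
  obtain ⟨C, hC, h⟩ := norm_iW_le (H := H) B.J
  have hc : ContinuousOn (fun u => ‖(ta a (B.s u) B.J)⁻¹‖ * ‖fderiv ℂ B.s u‖)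
      (closedBall B.o B.ρ) := fun u hu => by
    have hz := B.s.map_source (B.sub hu)
    exact ((((an_ta (B.an_a hz) B.J).continuousAt.comp (B.s.continuousAt (B.sub hu))).inv₀
      (B.ne _ hz)).norm.mul (B.an u (B.sub hu)).fderiv.continuousAt.norm).continuousWithinAt
  obtain ⟨M, hM⟩ := (isCompact_closedBall B.o B.ρ).exists_bound_of_continuousOn hc
  have hM0 : 0 ≤ M := (norm_nonneg _).trans (hM _ (mem_closedBall_self B.pos.le))
  refine ⟨C * M, by positivity, fun u hu w η => ?_⟩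
  have h1 := (le_abs_self _).trans (hM u (ball_subset_closedBall hu))
  have h2 : ‖fderiv ℂ B.s u (0, w)‖ ≤ ‖fderiv ℂ B.s u‖ * ‖w‖ := by
    simpa using (fderiv ℂ B.s u).le_opNorm (0, w)
  have h3 := h (fderiv ℂ B.s u (0, w)) (w1 (ta a (B.s u)) η)
  have h4 : 0 ≤ ∑ I, ‖w1 (ta a (B.s u)) η I‖ := by positivity
  rw [B.vert_w1 (B.sub' hu), norm_smul]
  calc _ ≤ ‖(ta a (B.s u) B.J)⁻¹‖ * (C * (‖fderiv ℂ B.s u‖ * ‖w‖) *
        ∑ I, ‖w1 (ta a (B.s u)) η I‖) := by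
        gcongr
        exact h3.trans (by gcongr)
    _ = C * (‖(ta a (B.s u) B.J)⁻¹‖ * ‖fderiv ℂ B.s u‖) * (∑ I, ‖w1 (ta a (B.s u)) η I‖) *
        ‖w‖ := by ring
    _ ≤ _ := by gcongr

theorem w1_sub (τ : FI n → ℂ) (η η' : Fin n → H) (I : FI n) :
    w1 τ (fun b => η b - η' b) I = w1 τ η I - w1 τ η' I := by
  simp only [w1, smul_sub, Finset.sum_sub_distrib]

/-- quantitative form of `null` -/
theorem null_le [CompleteSpace H] (J : H ≃ₗᵢ⋆[ℂ] H) : ∃ C : ℝ≥0∞, C ≠ ⊤ ∧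
    ∀ (f Φ : Cn n → H), ContDiffOn ℝ 1 f B.W → (∀ z ∈ B.W, J (f z) = f z) →
      DifferentiableOn ℂ Φ B.W → ∃ c : Cn q → H, ContinuousOn c (ball (a z₀) B.ρ) ∧
      ∫⁻ u in ball B.o B.ρ, ‖f (B.s u) - Φ (B.s u) - J (Φ (B.s u)) - c u.1‖ₑ ^ 2
        ∂(volume.prod volume) ≤ C * ∑ I, ∫⁻ z in B.W, ‖w1 (ta a z) (fun b => dj b f z) I -
          w1 (ta a z) (fun b => dj b Φ z) I‖ₑ ^ 2 := by
  obtain ⟨C₁, h0, h1⟩ := B.exists_vert (H := H)
  obtain ⟨C₂, h2, h3⟩ := B.lint_s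
  set C₃ : ℝ := (2 * C₁) ^ 2 * Fintype.card (FI n) with hC₃
  refine ⟨Rel85.pc volume (0 : Cn B.r) B.ρ * (ENNReal.ofReal C₃ * C₂), ENNReal.mul_ne_top
    (Rel85.pc_lt_top _ _ B.pos).ne (ENNReal.mul_ne_top ENNReal.ofReal_ne_top h2),
    fun f Φ hf hJ hΦ => ?_⟩
  have hΦa := R266.SCV.analyticOnNhd_of_differentiableOn B.isOpen_W hΦ
  have hΦ1 : ContDiffOn ℝ 1 Φ B.W := fun z hz =>
    (((hΦa z hz).contDiffAt (n := 1)).restrict_scalars ℝ).contDiffWithinAt
  set G : Cn n → H := fun z => f z - Φ z - J (Φ z) with hG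
  have hG1 : ContDiffOn ℝ 1 G B.W := (hf.sub hΦ1).sub ((Jr J).contDiff.comp_contDiffOn hΦ1)
  have hs1 : ContDiffOn ℝ 1 B.s (ball B.o B.ρ) := fun u hu =>
    (((B.an u (B.sub' hu)).contDiffAt (n := 1)).restrict_scalars ℝ).contDiffWithinAt
  have hg : ContDiffOn ℝ 1 (fun u => G (B.s u)) (ball B.o B.ρ) :=
    hG1.comp hs1 fun u hu => ⟨u, hu, rfl⟩
  set E : Cn n → FI n → H := fun z I => w1 (ta a z) (fun b => dj b f z) I -
    w1 (ta a z) (fun b => dj b Φ z) I with hE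
  have hτ : ∀ I, ContinuousOn (fun z => ta a z I) B.W := fun I z hz =>
    (an_ta (B.an_a (B.W_sub hz)) I).continuousAt.continuousWithinAt
  have hEc : ∀ I, ContinuousOn (fun z => E z I) B.W := fun I =>
    (cont_w1 hτ (cont_dj B.isOpen_W hf) I).sub (cont_w1 hτ (cont_dj B.isOpen_W hΦ1) I)
  refine ⟨fun t => ⨍ x in ball (0 : Cn B.r) (B.ρ / 2), G (B.s (t, x)),
    cont_avg volume isOpen_ball B.pos (g := fun u => G (B.s u)) (B.ball_eq ▸ hg.continuousOn), ?_⟩
  have h4 := pprod (volume : Measure (Cn q)) (volume : Measure (Cn B.r)) isOpen_ball B.pos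
    (g := fun u => G (B.s u)) (B.ball_eq ▸ hg)
    (h := fun u => ENNReal.ofReal C₃ * ∑ I, ‖E (B.s u) I‖ₑ ^ 2) ?_ ?_
  · rw [← B.ball_eq] at h4
    refine h4.trans ?_
    rw [mul_assoc, mul_assoc, lintegral_const_mul' _ _ ENNReal.ofReal_ne_top]
    gcongr
    refine (h3 fun z => ∑ I, ‖E z I‖ₑ ^ 2).trans (le_of_eq ?_)
    rw [lintegral_finsetSum' _ fun I _ =>
      (Rel85.aem B.isOpen_W.measurableSet (hEc I)).pow_const 2]
  · rw [← B.ball_eq]
    exact (Finset.aemeasurable_fun_sum _ fun I _ => (Rel85.aem measurableSet_ball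
      ((hEc I).comp hs1.continuousOn fun u hu => ⟨u, hu, rfl⟩)).pow_const 2).const_mul _
  · rw [← B.ball_eq]
    rintro ⟨t, w₀⟩ hu
    have hz : B.s (t, w₀) ∈ B.W := ⟨_, hu, rfl⟩
    have hN := B.isOpen_W.mem_nhds hz
    have hfd : DifferentiableAt ℝ f (B.s (t, w₀)) :=
      (hf.contDiffAt hN).differentiableAt one_ne_zero
    have hΦd := (hΦa _ hz).differentiableAt
    have h5 : HasFDerivAt (fun w => B.s (t, w)) (((fderiv ℂ B.s (t, w₀)).comp
        (ContinuousLinearMap.inr ℂ _ _)).restrictScalars ℝ) w₀ :=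
      ((B.an _ (B.sub' hu)).differentiableAt.hasFDerivAt.comp w₀
        (hasFDerivAt_prodMk_right t w₀)).restrictScalars ℝ
    have h6 := ((hfd.hasFDerivAt.fun_sub (hΦd.hasFDerivAt.restrictScalars ℝ)).fun_sub
      ((Jr J).hasFDerivAt.comp _ (hΦd.hasFDerivAt.restrictScalars ℝ))).comp w₀ h5
    have h7 : ‖fderiv ℝ (fun w => G (B.s (t, w))) w₀‖ ≤ 2 * C₁ * ∑ I, ‖E (B.s (t, w₀)) I‖ := by
      refine ContinuousLinearMap.opNorm_le_bound _ (by positivity) fun w => ?_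
      have h8 := h1 _ hu w fun b => dj b f (B.s (t, w₀)) - dj b Φ (B.s (t, w₀))
      simp only [w1_sub] at h8
      set X := ∑ b, B.V (t, w₀) w b • (dj b f (B.s (t, w₀)) - dj b Φ (B.s (t, w₀))) with hX
      have h9 : fderiv ℝ (fun w => G (B.s (t, w))) w₀ w = X + J X := by
        have h10 : fderiv ℂ Φ (B.s (t, w₀)) (fderiv ℂ B.s (t, w₀) (0, w)) =
            ∑ b, B.V (t, w₀) w b • dj b Φ (B.s (t, w₀)) := by
          simp only [dj_eq_fderiv hΦd]
          rw [← clm_toLp]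
          rfl
        have h11 := fd_real J hfd (eventually_of_mem hN hJ) (fderiv ℂ B.s (t, w₀) (0, w))
        have h12 : fderiv ℝ (fun w => G (B.s (t, w))) w₀ w =
            fderiv ℝ f (B.s (t, w₀)) (fderiv ℂ B.s (t, w₀) (0, w)) -
            fderiv ℂ Φ (B.s (t, w₀)) (fderiv ℂ B.s (t, w₀) (0, w)) -
            J (fderiv ℂ Φ (B.s (t, w₀)) (fderiv ℂ B.s (t, w₀) (0, w))) :=
          congrArg (fun L => L w) h6.fderiv
        rw [h12, h10, h11, hX]
        simp only [smul_sub, Finset.sum_sub_distrib, map_sub, V]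
        abel
      rw [h9]
      refine (norm_add_le _ _).trans ?_
      rw [J.norm_map]
      linarith
    have h13 : ‖fderiv ℝ (fun w => G (B.s (t, w))) w₀‖ ^ 2 ≤
        C₃ * ∑ I, ‖E (B.s (t, w₀)) I‖ ^ 2 := by
      refine (pow_le_pow_left₀ (norm_nonneg _) h7 2).trans ?_
      rw [mul_pow, hC₃, mul_assoc]
      gcongr
      exact sq_sum_le_card_mul_sum_sq
    simp only [← ofReal_norm, ← ENNReal.ofReal_pow (norm_nonneg _)]
    rw [← ENNReal.ofReal_sum_of_nonneg fun _ _ => sq_nonneg _,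
      ← ENNReal.ofReal_mul (by positivity)]
    exact ENNReal.ofReal_le_ofReal h13

/-- `f_k - Φ - J Φ` is, up to an `L²`-null sequence, a function of `a` -/
theorem null [CompleteSpace H] (J : H ≃ₗᵢ⋆[ℂ] H) {f : ℕ → Cn n → H} {S : Cn n → FI n → H}
    {Φ : Cn n → H} (hf : ∀ k, ContDiffOn ℝ 1 (f k) B.W) (hJ : ∀ k, ∀ z ∈ B.W, J (f k z) = f k z)
    (hΦ : DifferentiableOn ℂ Φ B.W) (hS : ∀ z ∈ B.W, S z = w1 (ta a z) fun b => dj b Φ z)
    (lim : ∀ I, Tendsto (fun k => ∫⁻ z in B.K,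
      ‖w1 (ta a z) (fun b => dj b (f k) z) I - S z I‖ₑ ^ 2) atTop (𝓝 0)) :
    ∃ c : ℕ → Cn q → H, (∀ k, ContinuousOn (c k) (ball (a z₀) B.ρ)) ∧
      Tendsto (fun k => ∫⁻ u in ball B.o B.ρ,
        ‖f k (B.s u) - Φ (B.s u) - J (Φ (B.s u)) - c k u.1‖ₑ ^ 2 ∂(volume.prod volume))
        atTop (𝓝 0) ∧
      Tendsto (fun k => ∫⁻ z in B.W, ‖f k z - Φ z - J (Φ z) - c k (a z)‖ₑ ^ 2) atTop (𝓝 0) := by
  obtain ⟨C, hC, h⟩ := B.null_le J
  choose c hc h1 using fun k => h (f k) Φ (hf k) (hJ k) hΦ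
  have h2 : Tendsto (fun k => ∫⁻ u in ball B.o B.ρ,
      ‖f k (B.s u) - Φ (B.s u) - J (Φ (B.s u)) - c k u.1‖ₑ ^ 2 ∂(volume.prod volume))
      atTop (𝓝 0) := by
    have h3 := ENNReal.Tendsto.const_mul (a := C)
      (tendsto_finsetSum Finset.univ fun I _ => lim I) (Or.inr hC)
    rw [Finset.sum_const_zero, mul_zero] at h3
    refine tendsto_of_tendsto_of_tendsto_of_le_of_le tendsto_const_nhds h3 (fun _ => zero_le)
      fun k => (h1 k).trans ?_
    refine mul_le_mul_right (Finset.sum_le_sum fun I _ => ?_) _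
    refine le_trans (le_of_eq ?_) (lintegral_mono_set B.W_sub_K)
    exact setLIntegral_congr_fun B.isOpen_W.measurableSet fun z hz => by simp only [hS z hz]
  refine ⟨c, hc, h2, ?_⟩
  obtain ⟨C', hC', h4⟩ := B.lint_symm
  have h5 := ENNReal.Tendsto.const_mul (a := C') h2 (Or.inr hC')
  rw [mul_zero] at h5
  refine tendsto_of_tendsto_of_tendsto_of_le_of_le tendsto_const_nhds h5 (fun _ => zero_le)
    fun k => le_trans (le_of_eq ?_) (h4 _)
  exact setLIntegral_congr_fun B.isOpen_W.measurableSet fun z hz => by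
    simp only [B.s.right_inv (B.W_sub hz), B.a_eq (B.W_sub hz)]

end Box

end Crest.Agent.X261.Rel.Bx
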