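import Crest.Agent.X261.Rel.Null

/-!
# X261, package REL (helper36), file `BPoin`: the Poincaré inequality along the plaques of a box
-/

set_option autoImplicit false

open Set Filter Topology Metric MeasureTheory
open scoped ENNReal

noncomputable section

namespace Crest.Agent.X261.Rel.Bx.Box

open Crest.Agent.R275.Geo (Cn)
open Crest.Agent.R275.OmT75 (dj)
open Crest.Agent.X261.Plk

variable {n q : ℕ} {H : Type*} [NormedAddCommGroup H] [NormedSpace ℂ H] [CompleteSpace H]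
  {a : Cn n → Cn q} {z₀ : Cn n} {U : Set (Cn n)} (B : Box a z₀ U)

/-- in the coordinates of the box -/
theorem poin (J : H ≃ₗᵢ⋆[ℂ] H) : ∃ C : ℝ≥0∞, C ≠ ⊤ ∧
    ∀ f : Cn n → H, ContDiffOn ℝ 1 f B.W → (∀ z ∈ B.W, J (f z) = f z) →
      ∃ c : Cn q → H, ContinuousOn c (ball (a z₀) B.ρ) ∧
        ∫⁻ u in ball B.o B.ρ, ‖f (B.s u) - c u.1‖ₑ ^ 2 ∂(volume.prod volume) ≤
          C * ∑ I, ∫⁻ z in B.W, ‖w1 (ta a z) (fun b => dj b f z) I‖ₑ ^ 2 ∧
        ∫⁻ z in B.W, ‖f z - c (a z)‖ₑ ^ 2 ≤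
          C * ∑ I, ∫⁻ z in B.W, ‖w1 (ta a z) (fun b => dj b f z) I‖ₑ ^ 2 := by
  obtain ⟨C, hC, h⟩ := B.null_le J
  obtain ⟨C', hC', h'⟩ := B.lint_symm
  refine ⟨max C (C' * C), max_ne_top hC (ENNReal.mul_ne_top hC' hC), fun f hf hJ => ?_⟩
  obtain ⟨c, hc, h1⟩ := h f (fun _ => 0) hf hJ (differentiableOn_const _)
  have h2 : ∀ z I, w1 (ta a z) (fun b => dj b (fun _ : Cn n => (0 : H)) z) I = 0 := fun z I => by
    simp [w1, dj]
  simp only [h2, sub_zero, map_zero] at h1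
  refine ⟨c, hc, h1.trans (by gcongr; exact le_max_left _ _), ?_⟩
  have h3 : ∫⁻ z in B.W, ‖f z - c (a z)‖ₑ ^ 2 =
      ∫⁻ z in B.W, ‖f (B.s (B.s.symm z)) - c (B.s.symm z).1‖ₑ ^ 2 :=
    setLIntegral_congr_fun B.isOpen_W.measurableSet fun z hz => by
      simp only [B.s.right_inv (B.W_sub hz), B.a_eq (B.W_sub hz)]
  rw [h3]
  refine (h' fun u => ‖f (B.s u) - c u.1‖ₑ ^ 2).trans ((mul_le_mul_right h1 _).trans ?_)
  rw [← mul_assoc]
  gcongr
  exact le_max_right _ _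

end Crest.Agent.X261.Rel.Bx.Box
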