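import Crest.Agent.X261.Rel.Nz

/-!
# X261, package REL (helper34), file `Core`: propagation along the fibres

Abstract setting: `a : M → E`, an ideal `Nl` of null sequences, open sets `O` with an averaging
property along the fibres (`Plq`).  If a family `f ω k` is approximated near each point, up to
functions of `a`, by `ev ω ∘ Ψ`, then it is approximated globally by `ev ω ∘ U`.
-/

set_option autoImplicit false
set_option linter.unusedSectionVars false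

open Set Filter Topology
open scoped ENNReal

namespace Crest.Agent.X261.Rel.Core

noncomputable section

variable {M : Type*} [TopologicalSpace M]

/-- an ideal of germs of null sequences -/
structure Idl (Nl : (ℕ → M → ℝ≥0∞) → M → Prop) : Prop where
  mono : ∀ {F F' x}, Nl F x → (∀ᶠ y in 𝓝 x, ∀ k, F' k y ≤ F k y) → Nl F' x
  add : ∀ {F F' x}, Nl F x → Nl F' x → Nl (fun k y => F k y + F' k y) x
  zero : ∀ x, Nl (fun _ _ => 0) x
  pos : ∀ {F x} {c : ℝ≥0∞}, c ≠ 0 → (∀ᶠ y in 𝓝 x, ∀ k, c ≤ F k y) → ¬ Nl F x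

variable {Nl : (ℕ → M → ℝ≥0∞) → M → Prop} {H : Type*} [NormedAddCommGroup H]

/-- vector valued null sequences -/
def Nv (Nl : (ℕ → M → ℝ≥0∞) → M → Prop) (g : ℕ → M → H) (x : M) : Prop :=
  Nl (fun k y => ‖g k y‖ₑ) x

namespace Idl

variable (hN : Idl Nl) {g g' : ℕ → M → H} {x : M}
include hN

theorem congr (h : Nv Nl g x) (e : ∀ᶠ y in 𝓝 x, ∀ k, g' k y = g k y) : Nv Nl g' x :=
  hN.mono h (e.mono fun _ hy k => by rw [hy k])

theorem of_le {H' : Type*} [NormedAddCommGroup H'] {g' : ℕ → M → H'} (h : Nv Nl g x)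
    (e : ∀ k y, ‖g' k y‖ ≤ ‖g k y‖) : Nv Nl g' x :=
  hN.mono h (Eventually.of_forall fun y k => enorm_le_iff_norm_le.2 (e k y))

theorem vadd (h : Nv Nl g x) (h' : Nv Nl g' x) : Nv Nl (fun k y => g k y + g' k y) x :=
  hN.mono (hN.add h h') (Eventually.of_forall fun _ _ => enorm_add_le _ _)

theorem vsub (h : Nv Nl g x) (h' : Nv Nl g' x) : Nv Nl (fun k y => g k y - g' k y) x :=
  hN.mono (hN.add h h') (Eventually.of_forall fun _ _ => enorm_sub_le)

theorem sum {ι : Type*} (s : Finset ι) {F : ι → ℕ → M → ℝ≥0∞} (h : ∀ j ∈ s, Nl (F j) x) :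
    Nl (fun k y => ∑ j ∈ s, F j k y) x := by
  classical
  induction s using Finset.induction_on with
  | empty => simpa using hN.zero x
  | insert j s hj ih =>
    simp only [Finset.sum_insert hj]
    exact hN.add (h j (Finset.mem_insert_self _ _))
      (ih fun i hi => h i (Finset.mem_insert_of_mem hi))

theorem eq_zero {u : M → H} (hu : ContinuousAt u x) (h : Nv Nl (fun _ y => u y) x) : u x = 0 := by
  by_contra h0
  have h1 : ‖u x‖ₑ / 2 < ‖u x‖ₑ := ENNReal.half_lt_self (by simpa using h0) enorm_ne_top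
  refine hN.pos (c := ‖u x‖ₑ / 2) (ENNReal.div_pos (by simpa using h0) (by norm_num)).ne' ?_ h
  filter_upwards [hu.enorm.eventually (lt_mem_nhds h1)] with z hz _ using hz.le

end Idl

variable {E : Type*} [TopologicalSpace E] {a : M → E} [NormedSpace ℝ H]
  {W : Type*} [NormedAddCommGroup W] [NormedSpace ℝ W]

variable (Nl a W H) in
/-- averaging along the plaques of `O` -/
def Plq (O : Set M) : Prop :=
  ∀ y ∈ O, ∀ V : Set M, IsOpen V → y ∈ V → ∀ u : M → W, ContinuousOn u V →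
    ∃ (c : E → W) (Y : Set E), IsOpen Y ∧ a y ∈ Y ∧ ContinuousOn c Y ∧
      ∀ (ev : W →L[ℝ] H) (d : ℕ → E → H), (∀ z ∈ V, Nv Nl (fun k x => d k (a x) - ev (u x)) z) →
        ∀ z ∈ O, a z ∈ Y → Nv Nl (fun k x => d k (a x) - ev (c (a x))) z

variable {Ω : Type*} {ev : Ω → W →L[ℝ] H} {f : Ω → ℕ → M → H}

variable (Nl a ev f) in
/-- `f ω k - h ω k ∘ a` tends to `ev ω ∘ U` near `x` -/
def Apx (h : Ω → ℕ → E → H) (U : M → W) (x : M) : Prop :=
  ∀ ω, Nv Nl (fun k y => f ω k y - h ω k (a y) - ev ω (U y)) x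

variable (Nl a ev f) in
/-- local data -/
structure Loc (O : Set M) (Ψ : M → W) : Prop where
  opn : IsOpen O
  plq : Plq Nl H a W O
  cont : ContinuousOn Ψ O
  apx : ∃ c, ∀ x ∈ O, Apx Nl a ev f c Ψ x

variable {h : Ω → ℕ → E → H} {U U' Ψ : M → W} {x : M} {O : Set M}

theorem Apx.congr (hN : Idl Nl) (h1 : Apx Nl a ev f h U x) (e : ∀ᶠ y in 𝓝 x, U' y = U y) :
    Apx Nl a ev f h U' x := fun ω => hN.congr (h1 ω) (e.mono fun _ hy _ => by rw [hy])

theorem Apx.uniq (hN : Idl Nl) (hev : ∀ w, (∀ ω, ev ω w = 0) → w = 0)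
    (h1 : Apx Nl a ev f h U x) (h2 : Apx Nl a ev f h U' x) (c1 : ContinuousAt U x)
    (c2 : ContinuousAt U' x) : U x = U' x := by
  refine sub_eq_zero.1 (hev _ fun ω => ?_)
  refine hN.eq_zero (u := fun y => ev ω (U y - U' y))
    ((ev ω).continuous.continuousAt.comp (c1.sub c2)) (hN.congr (hN.vsub (h2 ω) (h1 ω)) ?_)
  exact Eventually.of_forall fun y k => by rw [map_sub]; abel

theorem Loc.step (hN : Idl Nl) (hL : Loc Nl a ev f O Ψ) {y : M} (hy : y ∈ O) {V : Set M}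
    (hV : IsOpen V) (hyV : y ∈ V) (hU : ContinuousOn U V) (hA : ∀ z ∈ V, Apx Nl a ev f h U z) :
    ∃ (c : E → W) (Y : Set E), IsOpen Y ∧ a y ∈ Y ∧ ContinuousOn c Y ∧
      ∀ z ∈ O, a z ∈ Y → Apx Nl a ev f h (fun x => Ψ x + c (a x)) z := by
  obtain ⟨c₀, hc₀⟩ := hL.apx
  obtain ⟨c, Y, h1, h2, h3, h4⟩ := hL.plq y hy (V ∩ O) (hV.inter hL.opn) ⟨hyV, hy⟩
    (fun x => U x - Ψ x) ((hU.mono inter_subset_left).sub (hL.cont.mono inter_subset_right))
  refine ⟨c, Y, h1, h2, h3, fun z hz hzY ω => ?_⟩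
  have h5 := h4 (ev ω) (fun k t => c₀ ω k t - h ω k t) (fun z hz =>
    hN.congr (hN.vsub (hA z hz.1 ω) (hc₀ z hz.2 ω))
      (Eventually.of_forall fun y k => by rw [map_sub]; abel)) z hz hzY
  exact hN.congr (hN.vadd (hc₀ z hz ω) h5) (Eventually.of_forall fun y k => by rw [map_add]; abel)

/-- a continuous approximation is locally `Ψ + c ∘ a` -/
theorem Loc.form (hN : Idl Nl) (hev : ∀ w, (∀ ω, ev ω w = 0) → w = 0) (ha : Continuous a)
    (hL : Loc Nl a ev f O Ψ) {y : M} (hy : y ∈ O) {V : Set M}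
    (hV : IsOpen V) (hyV : y ∈ V) (hU : ContinuousOn U V) (hA : ∀ z ∈ V, Apx Nl a ev f h U z) :
    ∃ c : E → W, ∀ᶠ z in 𝓝 y, U z = Ψ z + c (a z) := by
  obtain ⟨c, Y, h1, h2, h3, h4⟩ := hL.step hN hy hV hyV hU hA
  refine ⟨c, ?_⟩
  filter_upwards [hV.mem_nhds hyV, hL.opn.mem_nhds hy, (h1.preimage ha).mem_nhds h2] with
    z z1 z2 z3
  exact (hA z z1).uniq hN hev (h4 z z2 z3) (hU.continuousAt (hV.mem_nhds z1))
    ((hL.cont.continuousAt (hL.opn.mem_nhds z2)).add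
      ((h3.continuousAt (h1.mem_nhds z3)).comp ha.continuousAt))

/-- **propagation** -/
theorem core (hN : Idl Nl) (hev : ∀ w, (∀ ω, ev ω w = 0) → w = 0) (ha : Continuous a)
    {T : Set M} (hloc : ∀ x ∈ T, ∃ O Ψ, x ∈ O ∧ Loc Nl a ev f O Ψ) {O₀ : Set M} {Ψ₀ : M → W}
    (h₀ : Loc Nl a ev f O₀ Ψ₀)
    (hc : ∀ x ∈ T, ∃ Y ⊆ T, IsPreconnected Y ∧ x ∈ Y ∧ (∀ y ∈ Y, a y = a x) ∧ ∃ y ∈ Y, y ∈ O₀) :
    ∃ (h : Ω → ℕ → E → H) (U : M → W), ∀ x ∈ T, ContinuousAt U x ∧ Apx Nl a ev f h U x := by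
  classical
  obtain ⟨h, hh⟩ := h₀.apx
  let good : M → Prop := fun x => ∃ (V : Set M) (U : M → W), IsOpen V ∧ x ∈ V ∧
    ContinuousOn U V ∧ ∀ z ∈ V, Apx Nl a ev f h U z
  have hgood : ∀ x ∈ T, good x := by
    intro x hx
    obtain ⟨Y, hY, hp, hxY, hYa, y, hy, hy₀⟩ := hc x hx
    refine hp.induction₂' (fun x y => good x → good y) (fun z hz => ?_)
      (fun _ _ _ _ _ _ h1 h2 h3 => h2 (h1 h3)) hy hxY ⟨O₀, Ψ₀, h₀.opn, hy₀, h₀.cont, hh⟩
    obtain ⟨O, Ψ, hzO, hL⟩ := hloc z (hY hz)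
    have key : ∀ z ∈ O, ∀ z' ∈ O, a z' = a z → good z → good z' := by
      rintro z hz z' hz' e ⟨V, U, h1, h2, h3, h4⟩
      obtain ⟨c, Y, g1, g2, g3, g4⟩ := hL.step hN hz h1 h2 h3 h4
      exact ⟨O ∩ a ⁻¹' Y, _, hL.opn.inter (g1.preimage ha), ⟨hz', by rwa [mem_preimage, e]⟩,
        (hL.cont.mono inter_subset_left).add (g3.comp ha.continuousOn fun _ hw => hw.2),
        fun w hw => g4 w hw.1 hw.2⟩
    filter_upwards [mem_nhdsWithin_of_mem_nhds (hL.opn.mem_nhds hzO), self_mem_nhdsWithin] with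
      z' h1 h2
    have e : a z' = a z := (hYa z' h2).trans (hYa z hz).symm
    exact ⟨key z hzO z' h1 e, key z' h1 z hzO e.symm⟩
  let U : M → W := fun x => if hx : good x then hx.choose_spec.choose x else 0
  have hU : ∀ (V : Set M) (U' : M → W), IsOpen V → ContinuousOn U' V →
      (∀ z ∈ V, Apx Nl a ev f h U' z) → ∀ z ∈ V, U z = U' z := by
    intro V U' h1 h2 h3 z hz
    have hg : good z := ⟨V, U', h1, hz, h2, h3⟩
    obtain ⟨g1, g2, g3, g4⟩ := hg.choose_spec.choose_spec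
    simp only [U, dif_pos hg]
    exact (g4 z g2).uniq hN hev (h3 z hz) (g3.continuousAt (g1.mem_nhds g2))
      (h2.continuousAt (h1.mem_nhds hz))
  refine ⟨h, U, fun x hx => ?_⟩
  obtain ⟨V, U', h1, h2, h3, h4⟩ := hgood x hx
  have e : ∀ᶠ y in 𝓝 x, U y = U' y := eventually_of_mem (h1.mem_nhds h2) (hU V U' h1 h3 h4)
  exact ⟨(h3.continuousAt (h1.mem_nhds h2)).congr (e.mono fun _ h => h.symm),
    (h4 x h2).congr hN e⟩

/-- a function which is locally a function of `a` is constant on connected parts of fibres -/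
theorem const_of_loc {Z : Type*} {v : M → Z} {Y : Set M} (hp : IsPreconnected Y)
    (hv : ∀ x ∈ Y, ∀ᶠ y in 𝓝[Y] x, v y = v x) {x y : M} (hx : x ∈ Y) (hy : y ∈ Y) : v x = v y :=
  hp.induction₂' (fun x y => v x = v y) (fun z hz => (hv z hz).mono fun _ h => ⟨h.symm, h⟩)
    (fun _ _ _ _ _ _ h1 h2 => h1.trans h2) hx hy

/-- a continuous limit of functions of `a` is constant on connected parts of fibres -/
theorem const_of_nv (hN : Idl Nl) (hev : ∀ w, (∀ ω, ev ω w = 0) → w = 0) (ha : Continuous a)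
    {T : Set M} (hT : IsOpen T) (hp : ∀ x ∈ T, ∃ O, IsOpen O ∧ x ∈ O ∧ Plq Nl H a W O)
    {v : M → W} (hv : ContinuousOn v T) {d : Ω → ℕ → E → H}
    (hd : ∀ x ∈ T, ∀ ω, Nv Nl (fun k y => d ω k (a y) - ev ω (v y)) x) {Y : Set M} (hY : Y ⊆ T)
    (hc : IsPreconnected Y) {t : E} (ht : ∀ y ∈ Y, a y = t) {x y : M} (hx : x ∈ Y) (hy : y ∈ Y) :
    v x = v y := by
  refine const_of_loc hc (fun z hz => ?_) hx hy
  obtain ⟨O, h1, h2, h3⟩ := hp z (hY hz)
  have hL : Loc Nl a ev (fun _ _ _ => (0 : H)) O fun _ => (0 : W) :=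
    ⟨h1, h3, continuousOn_const, fun _ _ _ => 0, fun x _ ω => by simpa [Nv] using hN.zero x⟩
  obtain ⟨c, hc⟩ := hL.form hN hev ha h2 hT (hY hz) hv (h := fun ω k t => -d ω k t)
    fun x hx ω => by simpa using hd x hx ω
  filter_upwards [mem_nhdsWithin_of_mem_nhds hc, self_mem_nhdsWithin] with w e hw
  rw [e, hc.self_of_nhds, ht w hw, ht z hz]

end

end Crest.Agent.X261.Rel.Core
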