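import Crest.Agent.X261.Rel.Prim
import Crest.Agent.X261.Rel.Stm
import Crest.Agent.X261.Rel.Core
import Crest.Agent.X261.Plk.Wt

/-!
# X261, package REL (helper36), file `Mp`: the maximum principle along the fibres

* `flat`          : a holomorphic function whose real part has a maximum along a regular fibre;
* `exists_max`    : an invariant function attains its maximum on a fibre;
* `inner_eq_zero` : an invariant fibre primitive of `⟪ξ, S⟫` forces `⟪ξ, S⟫ = 0`;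
* `char_eq_zero`  : additive functions on a group which is not virtually indicable.
-/

set_option autoImplicit false
set_option linter.unusedSectionVars false

open Set Filter Topology Metric Matrix
open scoped InnerProductSpace Pointwise

noncomputable section

namespace Crest.Agent.X261.Rel.Mp

open Crest.Agent.R275.Geo
open Crest.Agent.R275.OmT75 (dj dl)
open Crest.Agent.R273.UCov_914
open Crest.Agent.R273.Fock_243 (FI eW iW ep)
open Crest.Agent.R281.Kd_22 (Hm)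
open Crest.Agent.X261.Top (dW)
open Crest.Agent.X261.Gauss (Frm)
open Crest.Agent.X261.Rel.Bx

variable {n q : ℕ}

theorem flat {a : Cn n → Cn q} {g : Cn n → ℂ} {z₀ : Cn n} (ha : AnalyticAt ℂ a z₀)
    (h0 : ta a z₀ ≠ 0) (hg : AnalyticAt ℂ g z₀)
    (hm : ∀ᶠ z in 𝓝 z₀, a z = a z₀ → (g z).re ≤ (g z₀).re) :
    (∀ᶠ z in 𝓝 z₀, a z = a z₀ → (g z).re = (g z₀).re) ∧
      eW (fun b => dj b g z₀) *ᵥ ta a z₀ = 0 := by
  obtain ⟨U, hU, hUo, hz⟩ := _root_.eventually_nhds_iff.1 ha.eventually_analyticAt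
  obtain ⟨B⟩ := exists_box hUo hz (fun z hz => (hU z hz).differentiableAt.differentiableWithinAt) h0
  have ho : B.o ∈ B.s.source := B.sub (mem_closedBall_self B.pos.le)
  have hso : B.s B.o = z₀ := B.ctr
  have hι : ContinuousAt (fun w : Cn B.r => (a z₀, w)) 0 := by fun_prop
  have hs : AnalyticAt ℂ (fun w : Cn B.r => B.s (a z₀, w)) 0 :=
    (B.an _ ho).comp_of_eq (analyticAt_const.prod analyticAt_id) rfl
  have hh : AnalyticAt ℂ (fun w : Cn B.r => g (B.s (a z₀, w))) 0 := hg.comp_of_eq hs B.ctr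
  have ht : Tendsto (fun w : Cn B.r => B.s (a z₀, w)) (𝓝 0) (𝓝 z₀) := by
    simpa only [ContinuousAt, B.ctr] using hs.continuousAt
  have h1 : ∀ᶠ w in 𝓝 (0 : Cn B.r), Complex.exp (g (B.s (a z₀, w))) =
      Complex.exp (g (B.s (a z₀, 0))) := by
    refine Complex.eventually_eq_of_isLocalMax_norm
      (hh.cexp.eventually_analyticAt.mono fun w hw => hw.differentiableAt) ?_
    filter_upwards [ht.eventually hm, hι.eventually (B.s.open_source.mem_nhds ho)] with w h1 h2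
    simp only [Function.comp, Complex.norm_exp, B.ctr]
    exact Real.exp_le_exp.2 (h1 (B.fst _ h2))
  have hzt : z₀ ∈ B.s.target := B.W_sub B.mem_W
  constructor
  · have h2 : Tendsto (fun z => (B.s.symm z).2) (𝓝 z₀) (𝓝 0) := by
      have h3 : B.s.symm z₀ = B.o := (congrArg B.s.symm hso).symm.trans (B.s.left_inv ho)
      have h4 := (B.s.continuousAt_symm hzt).snd
      rw [ContinuousAt, h3] at h4
      exact h4
    filter_upwards [h2.eventually h1, B.s.open_target.mem_nhds hzt] with z h3 h4 h5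
    have h7 : (a z₀, (B.s.symm z).2) = B.s.symm z := Prod.ext (h5.symm.trans (B.a_eq h4)) rfl
    rw [h7, B.s.right_inv h4, B.ctr] at h3
    have h6 := congrArg norm h3
    rw [Complex.norm_exp, Complex.norm_exp] at h6
    exact Real.exp_injective h6
  · have h2 : fderiv ℂ (fun w : Cn B.r => g (B.s (a z₀, w))) 0 = 0 := by
      have h3 := hh.differentiableAt.hasFDerivAt.cexp
      have h4 := h3.unique ((hasFDerivAt_const _ _).congr_of_eventuallyEq h1)
      exact (smul_eq_zero.1 h4).resolve_left (Complex.exp_ne_zero _)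
    refine Plk.eW_wdg_of_mem (Plk.mem_span_of_ker fun x hx => ?_)
    obtain ⟨w, rfl⟩ := B.exists_V ho (x := x) (by rw [hso]; exact hx)
    have hg' : DifferentiableAt ℂ g (B.s B.o) := by rw [hso]; exact hg.differentiableAt
    have h5 := B.vert_dj ho hg' w
    have h6 := ((hg'.comp B.o (B.an _ ho).differentiableAt).hasFDerivAt.comp (0 : Cn B.r)
      (hasFDerivAt_prodMk_right (a z₀) (0 : Cn B.r))).fderiv
    have h7 : fderiv ℂ (fun v => g (B.s v)) B.o (0, w) = 0 :=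
      (congrArg (fun L => L w) (h6.symm.trans h2) :)
    rw [h7, hso] at h5
    rw [← h5]
    exact Finset.sum_congr rfl fun b _ => mul_comm _ _

variable {X : Type} [TopologicalSpace X] {A : Atl n X} {G : Type} [Group G] {D : MonD A G}
  {M : Subgroup G}

theorem cont_al (Z : Stp D q M) : Continuous Z.al := by
  refine continuous_iff_continuousAt.2 fun e => ?_
  obtain ⟨p, hp⟩ := (D.atl G).cover e
  have h1 := ((Z.hol p).continuousOn.continuousAt (((D.atl G).e p).open_target.mem_nhds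
    (((D.atl G).e p).map_source hp))).comp (((D.atl G).e p).continuousAt hp)
  refine h1.congr ?_
  filter_upwards [((D.atl G).e p).eventually_left_inverse hp] with y hy
  simp only [Function.comp, hy]

theorem al_M (Z : Stp D q M) {g : G} (hg : g ∈ M) (e : D.cov G) : Z.al (g • e) = Z.al e := by
  rw [Z.eqv, Z.L_M g hg, Z.lam_M g hg, add_zero]
  rfl

theorem an_aV (Z : Stp D q M) (i : A.ι) (v : G) {x : X} (hx : x ∈ (A.e i).source) :
    AnalyticAt ℂ (fun z => aV D Z.al i v ((A.e i).symm z)) (A.e i x) :=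
  R266.SCV.analyticOnNhd_of_differentiableOn (A.e i).open_target (Z.hol (i, v)) _
    ((A.e i).map_source hx)

theorem exists_max (Z : Stp D q M) (F : Z.Fb) {e : D.cov G} (he : Z.al e ∈ F.B)
    {u : D.cov G → ℝ} (hu : ContinuousOn u (Z.al ⁻¹' {Z.al e})) {K' : Subgroup G}
    (hK : Grp.FI K' M) (inv : ∀ g ∈ K', ∀ y, Z.al y = Z.al e → u (g • y) = u y) :
    ∃ y₀, Z.al y₀ = Z.al e ∧ ∀ y, Z.al y = Z.al e → u y ≤ u y₀ := by
  obtain ⟨C, hC, h1⟩ := F.cpt _ he
  obtain ⟨T, -, h2⟩ := hK.exists_cover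
  have h3 : IsCompact ((⋃ τ ∈ T, τ⁻¹ • C) ∩ Z.al ⁻¹' {Z.al e}) :=
    (T.isCompact_biUnion fun τ _ => hC.smul τ⁻¹).inter_right
      (isClosed_singleton.preimage (cont_al Z))
  have h4 : ∀ y, Z.al y = Z.al e →
      ∃ k ∈ K', k • y ∈ (⋃ τ ∈ T, τ⁻¹ • C) ∩ Z.al ⁻¹' {Z.al e} := by
    intro y hy
    obtain ⟨m, hm, h5⟩ := h1 y hy
    obtain ⟨τ, hτ, h6⟩ := h2 m hm
    refine ⟨_, h6, mem_biUnion hτ ⟨_, h5, (mul_smul _ _ _).symm⟩, ?_⟩
    exact (al_M Z (hK.le h6) y).trans hy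
  obtain ⟨k, -, h5⟩ := h4 e rfl
  obtain ⟨y₀, h6, h7⟩ := h3.exists_isMaxOn ⟨_, h5⟩ (hu.mono inter_subset_right)
  refine ⟨y₀, h6.2, fun y hy => ?_⟩
  obtain ⟨k, hk, h8⟩ := h4 y hy
  rw [← inv k hk y hy]
  exact h7 h8

/-- the maximum principle at a point of the cover -/
theorem at_max (Z : Stp D q M) (F : Z.Fb) {y : D.cov G} (hy : Z.al y ∈ F.B) {u : D.cov G → ℝ}
    (hm : ∀ y', Z.al y' = Z.al y → u y' ≤ u y) {i : A.ι} (hi : D.pr y ∈ (A.e i).source)
    {f : X → ℂ} {c : Cn q → ℝ} (hf : Hm A f (D.pr y))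
    (hu : ∀ᶠ x in 𝓝 (D.pr y), u (D.pt i (D.co i y) x) = (f x).re + c (aV D Z.al i (D.co i y) x)) :
    (∀ᶠ y' in 𝓝 y, Z.al y' = Z.al y → u y' = u y) ∧
      eW (fun b => dl A i b f (D.pr y)) *ᵥ dW A i (aV D Z.al i (D.co i y)) (D.pr y) = 0 := by
  have h0 : aV D Z.al i (D.co i y) (D.pr y) = Z.al y := by rw [aV, D.pt_co hi]
  have h1 := hu.self_of_nhds
  rw [D.pt_co hi, h0] at h1
  have hs : Tendsto (A.e i).symm (𝓝 (A.e i (D.pr y))) (𝓝 (D.pr y)) := by
    simpa only [ContinuousAt, (A.e i).left_inv hi] using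
      (A.e i).continuousAt_symm ((A.e i).map_source hi)
  obtain ⟨h2, h3⟩ := flat (an_aV Z i (D.co i y) hi)
    (F.reg i _ _ hi (by rw [D.pt_co hi]; exact hy)) (hf i hi) (by
      filter_upwards [hs.eventually hu] with z h2 h3
      rw [(A.e i).left_inv hi, h0] at h3
      rw [(A.e i).left_inv hi]
      have h4 := hm _ h3
      rw [h2, h1, h3] at h4
      linarith)
  refine ⟨?_, h3⟩
  have ht : Tendsto (fun y' => A.e i (D.pr y')) (𝓝 y) (𝓝 (A.e i (D.pr y))) :=
    ((A.e i).continuousAt hi).comp D.continuous_pr.continuousAt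
  filter_upwards [ht.eventually h2, D.co_eventually hi,
    D.continuous_pr.continuousAt.eventually hu] with y' h4 h5 h6 h7
  rw [(A.e i).left_inv hi, (A.e i).left_inv h5.1, h0, aV, ← h5.2, D.pt_co h5.1] at h4
  rw [aV, ← h5.2, D.pt_co h5.1, h7] at h6
  rw [h6, h1, h4 h7]

variable {W : Type} [NormedAddCommGroup W] [InnerProductSpace ℂ W]

theorem inner_eq_zero [ConnectedSpace (D.cov G)] (Z : Stp D q M) (F : Z.Fb) (Φ : Frm D q W)
    (ha : Φ.a = aV D Z.al) {T : Set (D.cov G)} (hT : IsOpen T) (hne : T.Nonempty)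
    (hB : ∀ e ∈ T, Z.al e ∈ F.B) (sat : ∀ e ∈ T, ∀ e', Z.al e' = Z.al e → e' ∈ T) (ξ : W)
    {u : D.cov G → ℝ} (hu : ContinuousOn u T) {K' : Subgroup G} (hK : Grp.FI K' M)
    (inv : ∀ g ∈ K', ∀ e ∈ T, u (g • e) = u e)
    (loc : ∀ e ∈ T, ∀ i, D.pr e ∈ (A.e i).source → ∃ (f : X → ℂ) (c : Cn q → ℝ) (κ : ℂ),
      Hm A f (D.pr e) ∧ ∀ᶠ x in 𝓝 (D.pr e),
        u (D.pt i (D.co i e) x) = (f x).re + c (Φ.a i (D.co i e) x) ∧
        (fun I => ⟪ξ, Φ.S i (D.co i e) x I⟫_ℂ) =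
          κ • (eW (fun b => dl A i b f x) *ᵥ dW A i (Φ.a i (D.co i e)) x)) :
    ∀ i v, ∀ x ∈ (A.e i).source, ∀ I, ⟪ξ, Φ.S i v x I⟫_ℂ = 0 := by
  rw [ha] at loc
  have key : ∀ e ∈ T, ∀ i, D.pr e ∈ (A.e i).source →
      (fun I => ⟪ξ, Φ.S i (D.co i e) (D.pr e) I⟫_ℂ) = 0 := by
    intro e he i hi
    have hY : Z.al ⁻¹' {Z.al e} ⊆ T := fun y hy => sat e he y hy
    obtain ⟨y₀, h1, h2⟩ := exists_max Z F (hB e he) (hu.mono hY) hK
      fun g hg y hy => inv g hg y (hY hy)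
    have h3 : (u y₀ = u y₀) = (u e = u y₀) := by
      refine Core.const_of_loc (v := fun y => u y = u y₀) (F.conn _ (hB e he)) (fun y hy => ?_)
        h1 rfl
      by_cases h4 : u y = u y₀
      · obtain ⟨j, hj⟩ := A.cover (D.pr y)
        obtain ⟨f, c, κ, h5, h6⟩ := loc y (hY hy) j hj
        have h7 := (at_max Z F (hB y (hY hy)) (fun y' h => h4 ▸ h2 y' (h.trans hy)) hj h5
          (h6.mono fun x hx => hx.1)).1
        filter_upwards [nhdsWithin_le_nhds h7, self_mem_nhdsWithin] with y' h8 h9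
        rw [h8 (h9.trans (Eq.symm hy))]
      · have h5 := (hu.continuousAt (hT.mem_nhds (hY hy))).eventually_ne h4
        filter_upwards [nhdsWithin_le_nhds h5] with y' h8
        exact propext (iff_of_false h8 h4)
    have h4 : u e = u y₀ := h3 ▸ rfl
    obtain ⟨f, c, κ, h5, h6⟩ := loc e he i hi
    rw [h6.self_of_nhds.2, (at_max Z F (hB e he) (fun y' h => h4 ▸ h2 y' h) hi h5
      (h6.mono fun x hx => hx.1)).2, smul_zero]
  intro i v x hx I
  refine congrFun (Plk.ident_fam (D := D) (f := fun i v x I => ⟪ξ, Φ.S i v x I⟫_ℂ)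
    (fun i v z hz => AnalyticAt.pi fun I => ?_) (fun i j v x hx h0 => ?_) ?_ i v x hx) I
  · exact R266.SCV.analyticOnNhd_of_differentiableOn (A.e i).open_target
      ((innerSL ℂ ξ).differentiable.comp_differentiableOn (Φ.S_hol i v I)) z hz
  · funext I
    rw [Φ.S_tr i j v x hx, Gauss.mv, inner_sum]
    refine Finset.sum_eq_zero fun J _ => ?_
    rw [inner_smul_right, congrFun h0 J, Pi.zero_apply, mul_zero]
  · obtain ⟨e, he⟩ := hne
    obtain ⟨j, hj⟩ := A.cover (D.pr e)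
    refine ⟨j, D.co j e, D.pr e, hj, ?_⟩
    have h1 : ContinuousAt (D.pt j (D.co j e)) (D.pr e) :=
      (D.continuousOn_pt j _).continuousAt ((A.e j).open_source.mem_nhds hj)
    filter_upwards [h1.eventually (hT.mem_nhds (by rw [D.pt_co hj]; exact he)),
      (A.e j).open_source.mem_nhds hj] with y h2 h3
    have h4 := key _ h2 j h3
    rwa [D.co_pt _ h3] at h4

theorem char_eq_zero {G : Type*} [Group G] {M N K' : Subgroup G} [N.Normal]
    (hV : ¬ Grp.VInd (M.map (QuotientGroup.mk' N))) (hK : Grp.FI K' M) (φ : G → ℝ)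
    (add : ∀ g ∈ K', ∀ h ∈ K', φ (g * h) = φ g + φ h) (hN : ∀ g ∈ K', g ∈ N → φ g = 0) :
    ∀ g ∈ K', φ g = 0 := by
  classical
  have h1 : ∀ g ∈ K', ∀ h ∈ K', (g : G ⧸ N) = h → φ g = φ h := fun g hg h hh e => by
    have h2 := K'.mul_mem (K'.inv_mem hg) hh
    have h3 := add g hg _ h2
    rw [mul_inv_cancel_left, hN _ h2 (QuotientGroup.eq.1 e), add_zero] at h3
    exact h3.symm
  let b : G ⧸ N → ℝ := fun x => if h : ∃ g ∈ K', (g : G ⧸ N) = x then φ h.choose else 0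
  have hb : ∀ g ∈ K', b g = φ g := fun g hg => by
    have h : ∃ g' ∈ K', (g' : G ⧸ N) = g := ⟨g, hg, rfl⟩
    simp only [b, dif_pos h]
    exact h1 _ h.choose_spec.1 _ hg h.choose_spec.2
  intro g hg
  by_contra h0
  refine hV ⟨_, hK.map _, b, ?_, g, ⟨g, hg, rfl⟩, by rwa [hb g hg]⟩
  rintro _ ⟨x, hx, rfl⟩ _ ⟨y, hy, rfl⟩
  have h2 := hb _ (K'.mul_mem hx hy)
  rw [add x hx y hy, ← hb x hx, ← hb y hy] at h2
  exact h2

theorem inv_of (Z : Stp D q M) {N K' : Subgroup G} [N.Normal]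
    (hV : ¬ Grp.VInd (M.map (QuotientGroup.mk' N))) (hK : Grp.FI K' M) {T : Set (D.cov G)}
    (sat : ∀ e ∈ T, ∀ e', Z.al e' = Z.al e → e' ∈ T) {u : D.cov G → ℝ}
    (h1 : ∀ g ∈ K', ∀ e ∈ T, ∀ e' ∈ T, Z.al e = Z.al e' → u (g • e) - u e = u (g • e') - u e')
    (h2 : ∀ g ∈ K', g ∈ N → ∀ e ∈ T, u (g • e) = u e) : ∀ g ∈ K', ∀ e ∈ T, u (g • e) = u e := by
  intro g hg e he
  refine sub_eq_zero.1 (char_eq_zero hV hK (fun g => u (g • e) - u e) (fun g hg h hh => ?_)
    (fun g hg hN => sub_eq_zero.2 (h2 g hg hN e he)) g hg)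
  have h3 := al_M Z (hK.le hh) e
  rw [h1 g hg e he _ (sat e he _ h3) h3.symm, mul_smul]
  ring

end Crest.Agent.X261.Rel.Mp
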