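import Crest.Agent.X261.Rel.Man
import Crest.Agent.X261.Rel.Mp
import Crest.Agent.X261.Rel.Null
import Crest.Agent.X261.Rel85.AvgA

/-!
# X261, package REL (helper34), file `Inst`: the global fibre primitive

* `Fm Z Ω H W`  : sequences `f ω k` whose forms `∂ f ∧ τ` tend to `ev ω ∘ S`;
* `Fm.Pr`       : a continuous `U` with `f ω k - h ω k ∘ al → ev ω ∘ U` over an open set;
* `Fm.exists_pr`, `Pr.form`, `Pr.const`, `Pr.inv`.
-/

set_option autoImplicit false
set_option linter.unusedSectionVars false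
set_option linter.dupNamespace false

open Set Filter Topology Metric Matrix MeasureTheory
open scoped ENNReal InnerProductSpace

namespace Crest.Agent.X261.Rel

open Crest.Agent.R275.Geo Crest.Agent.R275.Core144
open Crest.Agent.R275.OmT75 (dl dj dj_congr)
open Crest.Agent.R273.UCov_914
open Crest.Agent.R273.Fock_243 (FI Gam eW iW ep)
open Crest.Agent.X261.Top (dW)
open Crest.Agent.X261.Gauss (mv dV)
open Crest.Agent.X261.Plk (w1)
open Crest.Agent.X261.Rel.Nz Crest.Agent.X261.Rel.Core Crest.Agent.X261.Rel.Bx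

noncomputable section

variable {n : ℕ} {X : Type} [TopologicalSpace X] {A : Atl n X} {G : Type} [Group G]
  {D : MonD A G} {q : ℕ} {M : Subgroup G}

/-- approximating sequences with a common limit form -/
structure Fm (Z : Stp D q M) (Ω H W : Type) [NormedAddCommGroup H] [InnerProductSpace ℂ H]
    [NormedAddCommGroup W] [NormedSpace ℂ W] where
  J : H ≃ₗᵢ⋆[ℂ] H
  JW : W → W
  cont : Continuous JW
  ev : Ω → W →L[ℂ] H
  sep : ∀ w, (∀ ω, ev ω w = 0) → w = 0
  ev_J : ∀ ω w, ev ω (JW w) = J (ev ω w)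
  f : Ω → ℕ → D.cov G → H
  S : A.ι → G → X → FI n → W
  re : ∀ ω k e, J (f ω k e) = f ω k e
  lim : ∀ ω, Lim D Z.al (f ω) fun i v x I => ev ω (S i v x I)
  hol : ∀ i v I, DifferentiableOn ℂ (fun z => S i v ((A.e i).symm z) I) (A.e i).target
  deg : ∀ i v, ∀ x ∈ (A.e i).source, ∀ I : FI n, I.card ≠ q + 1 → S i v x I = 0
  hor : ∀ i v, ∀ x ∈ (A.e i).source, ∀ k, mv (eW (dV A i (aV D Z.al i v) x k)) (S i v x) = 0
  closed : ∀ i v, ∀ x ∈ (A.e i).source,
    ∑ b, mv (eW (ep b)) (fun I => dl A i b (fun y => S i v y I) x) = 0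

variable {Z : Stp D q M} {Ω H W : Type} [NormedAddCommGroup H] [InnerProductSpace ℂ H]
  [CompleteSpace H] [NormedAddCommGroup W] [NormedSpace ℂ W] [CompleteSpace W]

/-- boxes of the map `al` in the chart `p` -/
abbrev Stp.Bo (Z : Stp D q M) (p : (D.atl G).ι) (z₀ : Cn n) :=
  Box (fun z => Z.al (((D.atl G).e p).symm z)) z₀ ((D.atl G).e p).target

theorem Stp.Fb.box (F : Z.Fb) {e : D.cov G} (he : Z.al e ∈ F.B) {i : A.ι}
    (hi : D.pr e ∈ (A.e i).source) : Nonempty (Z.Bo (i, D.co i e) (A.e i (D.pr e))) :=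
  exists_box (A.e i).open_target ((A.e i).map_source hi) (Z.hol (i, D.co i e))
    (F.reg i _ _ hi (by rw [D.pt_co hi]; exact he))

theorem Stp.Fb.plq (F : Z.Fb) {e : D.cov G} (he : Z.al e ∈ F.B) (H : Type*)
    [NormedAddCommGroup H] [NormedSpace ℝ H] [CompleteSpace H] (W : Type*) [NormedAddCommGroup W]
    [NormedSpace ℝ W] [CompleteSpace W] :
    ∃ O, IsOpen O ∧ e ∈ O ∧ Plq (NM (D.atl G)) H Z.al W O := by
  obtain ⟨i, hi⟩ := A.cover (D.pr e)
  obtain ⟨b⟩ := F.box he hi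
  exact ⟨_, isOpen_bO b, ⟨⟨hi, rfl⟩, b.mem_W⟩, plq_box b H W⟩

namespace Fm

variable (m : Fm Z Ω H W)

/-- the evaluations as real linear maps -/
def evR (ω : Ω) : W →L[ℝ] H := (m.ev ω).restrictScalars ℝ

theorem loc_box {i : A.ι} {v : G} {z₀ : Cn n} (b : Z.Bo (i, v) z₀) {Φ : Cn n → W}
    (hΦ : DifferentiableOn ℂ Φ b.W) (hS : ∀ z ∈ b.W, m.S i v ((A.e i).symm z) =
      w1 (ta (fun z => aV D Z.al i v ((A.e i).symm z)) z) fun c => dj c Φ z) :
    Loc (NM (D.atl G)) Z.al m.evR m.f (bO b)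
      fun y => Φ (A.e i (D.pr y)) + m.JW (Φ (A.e i (D.pr y))) := by
  have hc : ContinuousOn (fun y => Φ (A.e i (D.pr y))) (bO b) :=
    hΦ.continuousOn.comp (((D.atl G).e (i, v)).continuousOn.mono inter_subset_left)
      fun _ hy => hy.2
  refine ⟨isOpen_bO b, plq_box b H W, hc.add (m.cont.comp_continuousOn hc), ?_⟩
  have hf : ∀ ω k, ContDiffOn ℝ 1 (fun z => m.f ω k (((D.atl G).e (i, v)).symm z)) b.W :=
    fun ω k => (((m.lim ω).f_sm k (i, v)).of_le (by simp)).mono b.W_sub_U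
  have hΦ' : ∀ ω, DifferentiableOn ℂ (fun z => m.ev ω (Φ z)) b.W := fun ω =>
    (m.ev ω).differentiable.comp_differentiableOn hΦ
  choose c h1 _ h3 using fun ω => b.null m.J (hf ω) (fun k z _ => m.re ω k _) (hΦ' ω)
    (S := fun z I => m.ev ω (m.S i v ((A.e i).symm z) I)) (fun z hz => by
      rw [hS z hz]
      refine (Plk.w1_map (m.ev ω : W →ₗ[ℂ] H) _ _).trans (congrArg _ (funext fun c => ?_))
      exact (Rel85.dj_clm' (m.ev ω)
        ((hΦ.differentiableAt (b.isOpen_W.mem_nhds hz)).restrictScalars ℝ) c).symm)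
    fun I => ((m.lim ω).lim i v b.K b.K_sub_U b.isCompact_K I).congr fun k =>
      setLIntegral_congr_fun b.isCompact_K.measurableSet fun z hz => by
        have e : tw D Z.al (m.f ω k) i v ((A.e i).symm z) I =
          w1 (ta (fun z => aV D Z.al i v ((A.e i).symm z)) (A.e i ((A.e i).symm z)))
            (fun c => dj c (fun z => aV D (m.f ω k) i v ((A.e i).symm z))
              (A.e i ((A.e i).symm z))) I := rfl
        rw [(A.e i).right_inv (b.K_sub_U hz)] at e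
        rw [e]
        rfl
  refine ⟨c, fun x hx ω => nm_of hx.1 ?_⟩
  have ha : ContinuousOn (fun z => Z.al (((D.atl G).e (i, v)).symm z)) b.W :=
    (Z.hol (i, v)).continuousOn.mono b.W_sub_U
  have h4 := nulS_of_sq ((measure_mono b.W_sub_K).trans_lt b.isCompact_K.measure_lt_top).ne
    (fun k => (((((hf ω k).continuousOn.sub (hΦ' ω).continuousOn).sub
      (m.J.continuous.comp_continuousOn (hΦ' ω).continuousOn)).sub
      ((h1 ω k).comp ha fun z hz => ?_)).enorm).aemeasurable b.isOpen_W.measurableSet) (h3 ω)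
  · refine (h4.mono subset_rfl fun k z hz => le_of_eq (congrArg _ ?_)).nulE
      (b.isOpen_W.mem_nhds hx.2)
    have e : A.e i (D.pr (((D.atl G).e (i, v)).symm z)) = z := (A.e i).right_inv (b.W_sub_U hz)
    beta_reduce
    rw [e, map_add]
    simp only [evR, ContinuousLinearMap.coe_restrictScalars', m.ev_J, Pi.sub_apply,
      Function.comp_apply]
    abel
  · have h5 := b.symm_mem hz
    rw [b.ball_eq] at h5
    rw [b.a_eq (b.W_sub hz)]
    exact h5.1

theorem prim {i : A.ι} {v : G} {z₀ : Cn n} (b : Z.Bo (i, v) z₀) : ∃ Φ : Cn n → W,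
    DifferentiableOn ℂ Φ b.W ∧ ∀ z ∈ b.W, m.S i v ((A.e i).symm z) =
      w1 (ta (fun z => aV D Z.al i v ((A.e i).symm z)) z) fun c => dj c Φ z := by
  have ht : ∀ z ∈ b.W, z ∈ (A.e i).target := fun z hz => b.W_sub_U hz
  refine (b.prim (S := fun z => m.S i v ((A.e i).symm z))
    (fun I z hz => (m.hol i v I).differentiableAt ((A.e i).open_target.mem_nhds (ht z hz)))
    (fun z hz => m.deg i v _ ((A.e i).map_target (ht z hz))) (fun z hz k => ?_)
    fun z hz => ?_).imp fun Φ h => ⟨h.1, h.2.2⟩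
  · have h := m.hor i v _ ((A.e i).map_target (ht z hz)) k
    have e : dV A i (aV D Z.al i v) ((A.e i).symm z) =
      th (fun z => aV D Z.al i v ((A.e i).symm z)) (A.e i ((A.e i).symm z)) := rfl
    rw [e, (A.e i).right_inv (ht z hz)] at h
    exact h
  · have h := m.closed i v _ ((A.e i).map_target (ht z hz))
    simp only [dl, (A.e i).right_inv (ht z hz)] at h
    exact h

/-- a global fibre primitive -/
structure Pr (F : Z.Fb) where
  B : Set (Cn q)
  opn : IsOpen B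
  sub : B ⊆ F.B
  ne : ∃ e, Z.al e ∈ B
  h : Ω → ℕ → Cn q → H
  U : D.cov G → W
  cont : ∀ e, Z.al e ∈ B → ContinuousAt U e
  apx : ∀ e, Z.al e ∈ B → Apx (NM (D.atl G)) Z.al m.evR m.f h U e

theorem exists_pr (F : Z.Fb) : Nonempty (m.Pr F) := by
  obtain ⟨e₀, he₀⟩ := F.ne
  obtain ⟨i₀, hi₀⟩ := A.cover (D.pr e₀)
  obtain ⟨b₀⟩ := F.box he₀ hi₀
  obtain ⟨Φ₀, h1, h2⟩ := m.prim b₀
  have h0 : Z.al (((D.atl G).e (i₀, D.co i₀ e₀)).symm (A.e i₀ (D.pr e₀))) = Z.al e₀ :=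
    congrArg Z.al (((D.atl G).e (i₀, D.co i₀ e₀)).left_inv (x := e₀) ⟨hi₀, rfl⟩)
  obtain ⟨h, U, hU⟩ := core (idl (D.atl G)) (ev := m.evR) m.sep (Mp.cont_al Z)
    (T := Z.al ⁻¹' (F.B ∩ ball (Z.al e₀) b₀.ρ)) (fun e he => by
      obtain ⟨i, hi⟩ := A.cover (D.pr e)
      obtain ⟨b⟩ := F.box he.1 hi
      obtain ⟨Φ, h1, h2⟩ := m.prim b
      exact ⟨bO b, _, ⟨⟨hi, rfl⟩, b.mem_W⟩, m.loc_box b h1 h2⟩) (m.loc_box b₀ h1 h2)
    fun e he => by
      have hu : (Z.al e, (0 : Cn b₀.r)) ∈ ball b₀.o b₀.ρ := by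
        rw [b₀.ball_eq, h0]
        exact ⟨he.2, mem_ball_self b₀.pos⟩
      refine ⟨Z.al ⁻¹' {Z.al e}, fun y hy => ?_, F.conn _ he.1, rfl, fun y hy => hy,
        bs b₀ (Z.al e, 0), a_bs b₀ (b₀.sub' hu), bs_mem b₀ hu⟩
      rw [mem_preimage, show Z.al y = Z.al e from hy]
      exact he
  exact ⟨⟨_, F.opn.inter isOpen_ball, inter_subset_left, ⟨e₀, he₀, mem_ball_self b₀.pos⟩, h, U,
    fun e he => (hU e he).1, fun e he => (hU e he).2⟩⟩

namespace Pr

variable {m} {F : Z.Fb} (P : m.Pr F)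

theorem isOpen : IsOpen (Z.al ⁻¹' P.B) := P.opn.preimage (Mp.cont_al Z)

theorem continuousOn : ContinuousOn P.U (Z.al ⁻¹' P.B) := fun e he =>
  (P.cont e he).continuousWithinAt

theorem form_of {O : Set (D.cov G)} {Ψ : D.cov G → W}
    (hL : Loc (NM (D.atl G)) Z.al m.evR m.f O Ψ) {e : D.cov G} (hO : e ∈ O) (he : Z.al e ∈ P.B) :
    ∃ c : Cn q → W, ∀ᶠ y in 𝓝 e, P.U y = Ψ y + c (Z.al y) :=
  hL.form (idl _) m.sep (Mp.cont_al Z) hO P.isOpen he P.continuousOn P.apx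

/-- the local form of the primitive -/
theorem form {e : D.cov G} (he : Z.al e ∈ P.B) {i : A.ι} (hi : D.pr e ∈ (A.e i).source) :
    ∃ (Φ : Cn n → W) (c : Cn q → W), AnalyticAt ℂ Φ (A.e i (D.pr e)) ∧ ∀ᶠ x in 𝓝 (D.pr e),
      P.U (D.pt i (D.co i e) x) =
        Φ (A.e i x) + m.JW (Φ (A.e i x)) + c (aV D Z.al i (D.co i e) x) ∧
      m.S i (D.co i e) x = w1 (dW A i (aV D Z.al i (D.co i e)) x) fun b => dj b Φ (A.e i x) := by
  obtain ⟨b⟩ := F.box (P.sub he) hi
  obtain ⟨Φ, h1, h2⟩ := m.prim b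
  obtain ⟨c, hc⟩ := P.form_of (m.loc_box b h1 h2) ⟨⟨hi, rfl⟩, b.mem_W⟩ he
  refine ⟨Φ, c, R266.SCV.analyticOnNhd_of_differentiableOn b.isOpen_W h1 _ b.mem_W, ?_⟩
  have h3 : Tendsto (D.pt i (D.co i e)) (𝓝 (D.pr e)) (𝓝 e) := by
    simpa only [ContinuousAt, D.pt_co hi] using
      (D.continuousOn_pt i (D.co i e)).continuousAt ((A.e i).open_source.mem_nhds hi)
  filter_upwards [h3.eventually hc, (A.e i).open_source.mem_nhds hi,
    ((A.e i).continuousAt hi).eventually (b.isOpen_W.mem_nhds b.mem_W)] with x h4 h5 h6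
  refine ⟨h4, ?_⟩
  have h7 := h2 _ h6
  rw [(A.e i).left_inv h5] at h7
  exact h7

theorem deck {g : G} (hg : g ∈ M) {e : D.cov G} (he : Z.al e ∈ P.B) (ω : Ω) :
    Nv (NM (D.atl G))
      (fun k y => m.f ω k (g • y) - P.h ω k (Z.al y) - m.evR ω (P.U (g • y))) e := by
  have h := NM.deck (P.apx (g • e) (by rwa [Mp.al_M Z hg]) ω)
  simp only [Mp.al_M Z hg] at h
  exact h

theorem cont_deck {g : G} (hg : g ∈ M) : ContinuousOn (fun y => P.U (g • y)) (Z.al ⁻¹' P.B) :=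
  P.continuousOn.comp (continuous_const_smul g).continuousOn fun y hy => by
    rwa [mem_preimage, Mp.al_M Z hg]

/-- invariance -/
theorem inv {g : G} (hg : g ∈ M) (hf : ∀ ω k y, m.f ω k (g • y) = m.f ω k y) {e : D.cov G}
    (he : Z.al e ∈ P.B) : P.U (g • e) = P.U e :=
  Apx.uniq (idl _) m.sep (U := fun y => P.U (g • y))
    (fun ω => by simpa only [hf] using (P.deck hg he ω :)) (P.apx e he)
    ((P.cont_deck hg).continuousAt (P.isOpen.mem_nhds he)) (P.cont e he)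

/-- equivariance up to a function on the base -/
theorem const {g : G} (hg : g ∈ M) (τ : Ω → Ω) (p : Ω → H ≃ₗᵢ[ℂ] H) (β : Ω → H) {T : W → W}
    (hT : Continuous T) (h1 : ∀ ω w, m.ev ω (T w) = p ω (m.ev (τ ω) w))
    (hf : ∀ ω k y, m.f ω k (g • y) = p ω (m.f (τ ω) k y) + β ω) {e e' : D.cov G}
    (he : Z.al e ∈ P.B) (h : Z.al e' = Z.al e) :
    P.U (g • e) - T (P.U e) = P.U (g • e') - T (P.U e') := by
  refine const_of_nv (idl (D.atl G)) (ev := m.evR) m.sep (Mp.cont_al Z) P.isOpen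
    (fun y hy => F.plq (P.sub hy) H W) (v := fun y => P.U (g • y) - T (P.U y))
    ((P.cont_deck hg).sub (hT.comp_continuousOn P.continuousOn))
    (d := fun ω k t => p ω (P.h (τ ω) k t) + β ω - P.h ω k t) (fun y hy ω => ?_)
    (Y := Z.al ⁻¹' {Z.al e}) (fun y hy => ?_) (F.conn _ (P.sub he)) (fun y hy => hy) rfl h
  · have h2 := (idl _).of_le (P.apx y hy (τ ω))
      (g' := fun k y => p ω (m.f (τ ω) k y - P.h (τ ω) k (Z.al y) - m.ev (τ ω) (P.U y)))
      fun k y => ((p ω).norm_map _).le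
    refine (idl _).congr ((idl _).vsub (P.deck hg hy ω) h2) (Eventually.of_forall fun y k => ?_)
    simp only [evR, ContinuousLinearMap.coe_restrictScalars', map_sub, h1, hf]
    abel
  · rw [mem_preimage, show Z.al y = Z.al e from hy]
    exact he

end Pr

end Fm

end

end Crest.Agent.X261.Rel
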