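import Crest.Agent.X261.Rel.Core
import Crest.Agent.X261.Rel.Box
import Crest.Agent.R273.UCovE_914

/-!
# X261, package REL (helper34), file `Man`: null sequences on a complex manifold

* `NM B F x` : `F k → 0` in `L¹` near `x`;  `idl`, `nm_of`, `NM.deck`;
* `plq_box`  : a product box has the averaging property.
-/

set_option autoImplicit false
set_option linter.unusedSectionVars false

open Set Filter Topology Metric MeasureTheory
open scoped ENNReal

namespace Crest.Agent.X261.Rel

open Crest.Agent.R275.Geo Crest.Agent.R273.UCov_914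
open Crest.Agent.X261.Rel.Nz Crest.Agent.X261.Rel.Core Crest.Agent.X261.Rel.Bx

noncomputable section

variable {n : ℕ} {M : Type} [TopologicalSpace M] {B : Atl n M} {F : ℕ → M → ℝ≥0∞} {x : M}

/-- `F k → 0` in `L¹` near `x` -/
def NM (B : Atl n M) (F : ℕ → M → ℝ≥0∞) (x : M) : Prop :=
  ∀ p, x ∈ (B.e p).source → NulE volume (fun k z => F k ((B.e p).symm z)) (B.e p x)

theorem an_tr {p p' : B.ι} (h : x ∈ (B.e p).source) (h' : x ∈ (B.e p').source) :
    AnalyticAt ℂ (fun z => B.e p' ((B.e p).symm z)) (B.e p x) :=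
  R266.SCV.analyticOnNhd_of_differentiableOn
    ((B.e p).isOpen_inter_preimage_symm (B.e p').open_source) (B.holo p p') _
    ⟨(B.e p).map_source h, by rw [mem_preimage, (B.e p).left_inv h]; exact h'⟩

theorem ev_symm {p : B.ι} (h : x ∈ (B.e p).source) {P : M → Prop} (hP : ∀ᶠ y in 𝓝 x, P y) :
    ∀ᶠ z in 𝓝 (B.e p x), P ((B.e p).symm z) :=
  ((B.e p).tendsto_symm h).eventually hP

theorem nm_of {p : B.ι} (hx : x ∈ (B.e p).source)
    (h : NulE volume (fun k z => F k ((B.e p).symm z)) (B.e p x)) : NM B F x := by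
  intro p' hx'
  have e : ((B.e p).symm.trans (B.e p')) (B.e p x) = B.e p' x :=
    congrArg (B.e p') ((B.e p).left_inv hx)
  rw [← e]
  refine NulE.image (μ := volume) ((B.e p).symm.trans (B.e p'))
    ⟨(B.e p).map_source hx, show (B.e p).symm (B.e p x) ∈ (B.e p').source by
      rwa [(B.e p).left_inv hx]⟩
    ((an_tr hx hx').contDiffAt.restrict_scalars ℝ) ?_ (h.mono ?_)
  · rw [e]
    exact (an_tr hx' hx).differentiableAt.restrictScalars ℝ
  · filter_upwards [ev_symm hx ((B.e p').eventually_left_inverse hx')] with z hz k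
    exact (congrArg (F k) hz).le

theorem idl (B : Atl n M) : Idl (NM B) where
  mono h e p hp := (h p hp).mono (ev_symm hp e)
  add h h' p hp := (h p hp).add (h' p hp)
  zero _ _ _ := nulE_zero
  pos {F x c} hc e h := by
    obtain ⟨p, hp⟩ := B.cover x
    exact not_nulE hc (ev_symm hp e) (h p hp)

theorem NM.deck {X : Type} [TopologicalSpace X] {A : Atl n X} {G : Type} [Group G] {D : MonD A G}
    {F : ℕ → D.cov G → ℝ≥0∞} {g : G} {e : D.cov G} (h : NM (D.atl G) F (g • e)) :
    NM (D.atl G) (fun k y => F k (g • y)) e := by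
  intro p hp
  have := h (p.1, p.2 * g⁻¹) ⟨hp.1, by rw [D.co_deck, hp.2]⟩
  refine this.mono (Eventually.of_forall fun z k => le_of_eq ?_)
  exact congrArg (F k) (D.deck_pt g _ _ _)

section box

instance haarProd (q r : ℕ) :
    ((volume : Measure (Cn q)).prod (volume : Measure (Cn r))).IsAddHaarMeasure :=
  Measure.prod.instIsAddHaarMeasure _ _

variable {q : ℕ} {a : M → Cn q} {p : B.ι} {z₀ : Cn n}
  (b : Box (fun z => a ((B.e p).symm z)) z₀ (B.e p).target)

/-- the parametrisation of a box -/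
def bs (u : Cn q × Cn b.r) : M := (B.e p).symm (b.s u)

/-- the open box in the manifold -/
def bO : Set M := (B.e p).source ∩ B.e p ⁻¹' b.W

theorem isOpen_bO : IsOpen (bO b) := (B.e p).isOpen_inter_preimage b.isOpen_W

theorem a_bs {u : Cn q × Cn b.r} (hu : u ∈ b.s.source) : a (bs b u) = u.1 := b.fst u hu

theorem e_bs {u : Cn q × Cn b.r} (hu : u ∈ b.s.source) : B.e p (bs b u) = b.s u :=
  (B.e p).right_inv (b.tgt (b.s.map_source hu))

theorem bs_src {u : Cn q × Cn b.r} (hu : u ∈ b.s.source) : bs b u ∈ (B.e p).source :=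
  (B.e p).map_target (b.tgt (b.s.map_source hu))

theorem bs_mem {u : Cn q × Cn b.r} (hu : u ∈ ball b.o b.ρ) : bs b u ∈ bO b :=
  ⟨bs_src b (b.sub' hu), by rw [mem_preimage, e_bs b (b.sub' hu)]; exact ⟨u, hu, rfl⟩⟩

theorem exists_bs {y : M} (hy : y ∈ bO b) : ∃ u ∈ ball b.o b.ρ, bs b u = y := by
  obtain ⟨u, hu, e⟩ := hy.2
  exact ⟨u, hu, by rw [bs, e, (B.e p).left_inv hy.1]⟩

theorem continuousOn_bs : ContinuousOn (bs b) b.s.source :=
  (B.e p).continuousOn_symm.comp b.s.continuousOn fun _ hu => b.tgt (b.s.map_source hu)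

theorem nm_iff_box {u : Cn q × Cn b.r} (hu : u ∈ b.s.source) : NM B F (bs b u) ↔
    NulE ((volume : Measure (Cn q)).prod volume) (fun k v => F k (bs b v)) u := by
  have h1 := (b.an u hu).contDiffAt.restrict_scalars ℝ (n := 1)
  have h2 := (b.an_symm _ (b.s.map_source hu)).contDiffAt.restrict_scalars ℝ (n := 1)
  constructor
  · intro h
    have h3 := h p (bs_src b hu)
    rw [e_bs b hu] at h3
    have h4 := NulE.image (μ := volume) (μ' := (volume : Measure (Cn q)).prod volume) b.s.symm
      (b.s.map_source hu) h2 (F := fun k v => F k (bs b v))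
      (by rw [b.s.left_inv hu]; exact h1.differentiableAt one_ne_zero) (h3.mono ?_)
    · rwa [b.s.left_inv hu] at h4
    · filter_upwards [b.s.eventually_right_inverse' hu] with z hz k
      rw [bs, hz]
  · intro h
    refine nm_of (bs_src b hu) ?_
    rw [e_bs b hu]
    exact NulE.image b.s hu h1 (h2.differentiableAt one_ne_zero) h

theorem continuousOn_avg {E₁ E₂ W : Type*} [PseudoMetricSpace E₁] [ProperSpace E₁]
    [MetricSpace E₂] [ProperSpace E₂] [MeasurableSpace E₂] [BorelSpace E₂]
    {μ : Measure E₂} [IsLocallyFiniteMeasure μ] [NormedAddCommGroup W] [NormedSpace ℝ W]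
    {g : E₁ × E₂ → W} {u : E₁ × E₂} {δ : ℝ} (hg : ContinuousOn g (closedBall u δ)) :
    ContinuousOn (fun t => ⨍ w in closedBall u.2 δ, g (t, w) ∂μ) (ball u.1 δ) := by
  obtain ⟨C, hC⟩ := (isCompact_closedBall u δ).exists_bound_of_continuousOn hg
  have hm : ∀ t ∈ ball u.1 δ, ∀ w ∈ closedBall u.2 δ, (t, w) ∈ closedBall u δ := fun t ht w hw => by
    rw [← closedBall_prod_same]; exact ⟨ball_subset_closedBall ht, hw⟩
  simp only [setAverage_eq]
  refine ContinuousOn.const_smul ?_ _
  have hK := (isCompact_closedBall u.2 δ).measurableSet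
  refine continuousOn_of_dominated (bound := fun _ => C) (fun t ht => ?_) (fun t ht => ?_) ?_ ?_
  · exact (hg.comp (by fun_prop) fun w hw => hm t ht w hw).aestronglyMeasurable hK
  · exact ae_restrict_of_forall_mem hK fun w hw => hC _ (hm t ht w hw)
  · exact integrableOn_const (isCompact_closedBall _ _).measure_lt_top.ne
  · exact ae_restrict_of_forall_mem hK fun w hw => hg.comp (by fun_prop) fun t ht => hm t ht w hw

theorem plq_box (H : Type*) [NormedAddCommGroup H] [NormedSpace ℝ H] [CompleteSpace H]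
    (W : Type*) [NormedAddCommGroup W] [NormedSpace ℝ W] [CompleteSpace W] :
    Plq (NM B) H a W (bO b) := by
  intro y hy V hV hyV U hU
  obtain ⟨u, hu, rfl⟩ := exists_bs b hy
  obtain ⟨δ, hδ, hs⟩ := nhds_basis_closedBall.mem_iff.1 (inter_mem (isOpen_ball.mem_nhds hu)
    (((continuousOn_bs b).continuousAt (b.s.open_source.mem_nhds (b.sub' hu))).preimage_mem_nhds
      (hV.mem_nhds hyV)))
  have hg : ContinuousOn (fun v => U (bs b v)) (closedBall u δ) :=
    hU.comp ((continuousOn_bs b).mono fun v hv => b.sub' (hs hv).1) fun v hv => (hs hv).2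
  have hm : ∀ t ∈ ball u.1 δ, ∀ w ∈ closedBall u.2 δ, (t, w) ∈ closedBall u δ := fun t ht w hw => by
    rw [← closedBall_prod_same]; exact ⟨ball_subset_closedBall ht, hw⟩
  have hQ := isCompact_closedBall u.2 δ
  have hQ0 : (volume : Measure (Cn b.r)) (closedBall u.2 δ) ≠ 0 :=
    (measure_closedBall_pos _ _ hδ).ne'
  refine ⟨fun t => ⨍ w in closedBall u.2 δ, U (bs b (t, w)), ball u.1 δ, isOpen_ball, ?_,
    continuousOn_avg hg, fun ev d hd z hz hzY => ?_⟩
  · rw [a_bs b (b.sub' hu)]; exact mem_ball_self hδ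
  obtain ⟨v, hv, rfl⟩ := exists_bs b hz
  rw [a_bs b (b.sub' hv)] at hzY
  have h1 := nulE_avg (μ₁ := (volume : Measure (Cn q))) hQ hQ0 (t := v.1)
    (g := fun k v => d k v.1 - ev (U (bs b v))) (fun w hw => by
      have h2 := hs (hm _ hzY w hw)
      refine ((nm_iff_box b (b.sub' h2.1)).1 (hd _ h2.2)).mono ?_
      filter_upwards [b.s.open_source.mem_nhds (b.sub' h2.1)] with v' hv' k
      rw [a_bs b hv']) v.2
  refine (nm_iff_box b (b.sub' hv)).2 (h1.mono ?_)
  filter_upwards [b.s.open_source.mem_nhds (b.sub' hv),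
    (isOpen_ball.preimage continuous_fst).mem_nhds hzY] with v' h2 h3 k
  have hi : IntegrableOn (fun w => U (bs b (v'.1, w))) (closedBall u.2 δ) :=
    (hg.comp (by fun_prop) fun w hw => hm _ h3 w hw).integrableOn_compact hQ
  refine le_of_eq (congrArg _ ?_)
  rw [a_bs b h2]
  conv_lhs => rw [← setAverage_const hQ0 hQ.measure_lt_top.ne (d k v'.1)]
  simp only [setAverage_eq]
  have hc : IntegrableOn (fun _ => d k v'.1) (closedBall u.2 δ) :=
    integrableOn_const hQ.measure_lt_top.ne
  rw [integral_sub hc (ev.integrable_comp hi),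
    ev.integral_comp_comm hi, smul_sub, map_smul]

end box

end

end Crest.Agent.X261.Rel
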