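import Mathlib
import Crest.Agent.R189.Mean

/-!
# X261, package REL (helper34): mean square Hilbert spaces

For a mean `μ` on a type `Ω` and a complex Hilbert space `H`, `Ms μ H` is the completion of the
bounded functions `Ω → H` for the inner product `μ ⟪u ω, v ω⟫`.
-/

set_option autoImplicit false
set_option linter.unusedSectionVars false
set_option linter.dupNamespace false

open scoped ComplexConjugate InnerProductSpace
open Filter Topology

namespace Crest.Agent.X261.Rel.Ms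

open Crest.Agent.R189.MeanF

attribute [-instance] CStarModule.toInner

noncomputable section

/-- a bundled mean -/
structure Mn (Ω : Type*) where
  m : (Ω → ℝ) → ℝ
  is : IsMean m

/-- bounded functions -/
abbrev Li (Ω : Type*) (H : Type*) [NormedAddCommGroup H] := lp (fun _ : Ω => H) ⊤

variable {Ω : Type*} {H H' : Type*} [NormedAddCommGroup H] [NormedAddCommGroup H']

theorem memℓp_of {u : Ω → H} {C : ℝ} (h : ∀ ω, ‖u ω‖ ≤ C) : Memℓp u ⊤ :=
  memℓp_infty ⟨C, by rintro _ ⟨ω, rfl⟩; exact h ω⟩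

/-- a bounded function as an element of `Li` -/
def mk (u : Ω → H) (h : ∃ C, ∀ ω, ‖u ω‖ ≤ C) : Li Ω H := ⟨u, memℓp_of h.choose_spec⟩

@[simp] theorem mk_apply (u : Ω → H) (h : ∃ C, ∀ ω, ‖u ω‖ ≤ C) (ω : Ω) : mk u h ω = u ω := rfl

theorem norm_apply_le (u : Li Ω H) (ω : Ω) : ‖u ω‖ ≤ ‖u‖ :=
  lp.norm_apply_le_norm ENNReal.top_ne_zero u ω

theorem norm_le (u : Li Ω H) {C : ℝ} (hC : 0 ≤ C) (h : ∀ ω, ‖u ω‖ ≤ C) : ‖u‖ ≤ C :=
  lp.norm_le_of_forall_le hC h

/-! ### complex means -/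

/-- bounded complex function -/
def BC (f : Ω → ℂ) : Prop := ∃ C, ∀ ω, ‖f ω‖ ≤ C

theorem BC.re {f : Ω → ℂ} (h : BC f) : Bdd fun ω => (f ω).re := by
  obtain ⟨C, hC⟩ := h
  exact ⟨C, fun ω => (Complex.abs_re_le_norm _).trans (hC ω)⟩

theorem BC.im {f : Ω → ℂ} (h : BC f) : Bdd fun ω => (f ω).im := by
  obtain ⟨C, hC⟩ := h
  exact ⟨C, fun ω => (Complex.abs_im_le_norm _).trans (hC ω)⟩

namespace Mn

variable (μ : Mn Ω)

/-- the mean of a complex function -/
def c (f : Ω → ℂ) : ℂ := ⟨μ.m fun ω => (f ω).re, μ.m fun ω => (f ω).im⟩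

theorem c_add {f g : Ω → ℂ} (hf : BC f) (hg : BC g) :
    μ.c (fun ω => f ω + g ω) = μ.c f + μ.c g := by
  apply Complex.ext
  · exact μ.is.add _ _ hf.re hg.re
  · exact μ.is.add _ _ hf.im hg.im

theorem c_conj {f : Ω → ℂ} (hf : BC f) : μ.c (fun ω => conj (f ω)) = conj (μ.c f) := by
  apply Complex.ext
  · rfl
  · exact μ.is.neg hf.im

theorem c_mul (r : ℂ) {f : Ω → ℂ} (hf : BC f) : μ.c (fun ω => r * f ω) = r * μ.c f := by
  have h1 := μ.is.smul r.re _ hf.re
  have h2 := μ.is.smul r.im _ hf.im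
  have h3 := μ.is.smul r.re _ hf.im
  have h4 := μ.is.smul r.im _ hf.re
  apply Complex.ext
  · have := μ.is.sub (hf.re.smul r.re) (hf.im.smul r.im)
    rw [h1, h2] at this
    exact this
  · have := μ.is.add _ _ (hf.im.smul r.re) (hf.re.smul r.im)
    rw [h3, h4] at this
    exact this

theorem c_const (r : ℂ) : μ.c (fun _ => r) = r :=
  Complex.ext (μ.is.const _) (μ.is.const _)

end Mn

variable [InnerProductSpace ℂ H] [InnerProductSpace ℂ H']

theorem bc_inner (u v : Li Ω H) : BC fun ω => ⟪u ω, v ω⟫_ℂ :=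
  ⟨‖u‖ * ‖v‖, fun ω => (norm_inner_le_norm _ _).trans
    (mul_le_mul (norm_apply_le u ω) (norm_apply_le v ω) (norm_nonneg _) (norm_nonneg _))⟩

theorem bdd_sq (u : Li Ω H) : Bdd fun ω => ‖u ω‖ ^ 2 :=
  ⟨‖u‖ ^ 2, fun ω => by
    rw [abs_of_nonneg (sq_nonneg _)]
    exact pow_le_pow_left₀ (norm_nonneg _) (norm_apply_le u ω) 2⟩

/-- bounded functions with the mean inner product -/
def Pre (_μ : Mn Ω) (H : Type*) [NormedAddCommGroup H] [InnerProductSpace ℂ H] := Li Ω H

variable (μ : Mn Ω)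

instance : AddCommGroup (Pre μ H) := inferInstanceAs (AddCommGroup (Li Ω H))
instance : Module ℂ (Pre μ H) := inferInstanceAs (Module ℂ (Li Ω H))

/-- the identity map -/
def toPre : Li Ω H ≃ₗ[ℂ] Pre μ H := LinearEquiv.refl ℂ _

theorem re_inner_self (u : Li Ω H) :
    (μ.c fun ω => ⟪u ω, u ω⟫_ℂ).re = μ.m fun ω => ‖u ω‖ ^ 2 := by
  change μ.m _ = _
  congr 1
  funext ω
  exact inner_self_eq_norm_sq (𝕜 := ℂ) (u ω)

/-- the mean inner product -/
@[reducible] def core (H : Type*) [NormedAddCommGroup H] [InnerProductSpace ℂ H] :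
    PreInnerProductSpace.Core ℂ (Pre μ H) where
  inner u v := μ.c fun ω => ⟪((toPre μ).symm u) ω, ((toPre μ).symm v) ω⟫_ℂ
  conj_inner_symm u v := by
    rw [← μ.c_conj (bc_inner _ _)]
    simp only [inner_conj_symm]
  re_inner_nonneg u := by
    have := re_inner_self μ ((toPre μ).symm u)
    change 0 ≤ (μ.c _).re
    rw [this]
    exact μ.is.nonneg _ (bdd_sq _) fun _ => sq_nonneg _
  add_left u v w := by
    rw [← μ.c_add (bc_inner _ _) (bc_inner _ _)]
    simp only [map_add, lp.coeFn_add, Pi.add_apply, inner_add_left]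
  smul_left u v r := by
    rw [← μ.c_mul _ (bc_inner _ _)]
    simp only [map_smul, lp.coeFn_smul, Pi.smul_apply, inner_smul_left]

instance : SeminormedAddCommGroup (Pre μ H) :=
  InnerProductSpace.Core.toSeminormedAddCommGroup (𝕜 := ℂ) (c := core μ H)

instance : InnerProductSpace ℂ (Pre μ H) := InnerProductSpace.ofCore (core μ H)

/-- the mean square Hilbert space -/
def Ms (H : Type*) [NormedAddCommGroup H] [InnerProductSpace ℂ H] :=
  UniformSpace.Completion (Pre μ H)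

instance : NormedAddCommGroup (Ms μ H) :=
  inferInstanceAs (NormedAddCommGroup (UniformSpace.Completion (Pre μ H)))
instance : InnerProductSpace ℂ (Ms μ H) :=
  inferInstanceAs (InnerProductSpace ℂ (UniformSpace.Completion (Pre μ H)))
instance : CompleteSpace (Ms μ H) :=
  inferInstanceAs (CompleteSpace (UniformSpace.Completion (Pre μ H)))

/-- the class of a bounded function (linear map) -/
def il : Li Ω H →ₗ[ℂ] Ms μ H :=
  (UniformSpace.Completion.toComplₗᵢ (𝕜 := ℂ) (E := Pre μ H)).toLinearMap.comp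
    (toPre μ).toLinearMap

theorem inner_il (u v : Li Ω H) : ⟪il μ u, il μ v⟫_ℂ = μ.c fun ω => ⟪u ω, v ω⟫_ℂ :=
  UniformSpace.Completion.inner_coe (𝕜 := ℂ) (toPre μ u) (toPre μ v)

theorem norm_il_sq (u : Li Ω H) : ‖il μ u‖ ^ 2 = μ.m fun ω => ‖u ω‖ ^ 2 := by
  rw [← re_inner_self, ← inner_il]
  exact (inner_self_eq_norm_sq (𝕜 := ℂ) _).symm

theorem norm_il_le {u : Li Ω H} {C : ℝ} (hC : 0 ≤ C) (h : ∀ ω, ‖u ω‖ ≤ C) : ‖il μ u‖ ≤ C := by
  apply le_of_sq_le_sq _ hC
  rw [norm_il_sq]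
  exact (μ.is.mono (bdd_sq u) (Bdd.const _)
    fun ω => pow_le_pow_left₀ (norm_nonneg _) (h ω) 2).trans_eq (μ.is.const _)

/-- the class of a bounded function -/
def i : Li Ω H →L[ℂ] Ms μ H :=
  (il μ).mkContinuous 1 fun u => by
    rw [one_mul]; exact norm_il_le μ (norm_nonneg _) (norm_apply_le u)

theorem inner_i (u v : Li Ω H) : ⟪i μ u, i μ v⟫_ℂ = μ.c fun ω => ⟪u ω, v ω⟫_ℂ := inner_il μ u v

theorem re_inner_i (u v : Li Ω H) : (⟪i μ u, i μ v⟫_ℂ).re = μ.m fun ω => (⟪u ω, v ω⟫_ℂ).re := by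
  rw [inner_i]; rfl

theorem norm_i_sq (u : Li Ω H) : ‖i μ u‖ ^ 2 = μ.m fun ω => ‖u ω‖ ^ 2 := norm_il_sq μ u

theorem norm_i_le {u : Li Ω H} {C : ℝ} (hC : 0 ≤ C) (h : ∀ ω, ‖u ω‖ ≤ C) : ‖i μ u‖ ≤ C :=
  norm_il_le μ hC h

theorem norm_i_le_norm (u : Li Ω H) : ‖i μ u‖ ≤ ‖u‖ := norm_i_le μ (norm_nonneg _) (norm_apply_le u)

theorem dense_il : DenseRange (il μ : Li Ω H → Ms μ H) :=
  UniformSpace.Completion.denseRange_coe (α := Pre μ H)

theorem dense_i : DenseRange (i μ : Li Ω H → Ms μ H) := dense_il μ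

theorem induction {P : Ms μ H → Prop} (hP : IsClosed {x | P x}) (h : ∀ u, P (i μ u)) (x : Ms μ H) :
    P x := (dense_i μ).induction_on x hP h

/-! ### isometries -/

section iso

variable {σ σ' : ℂ →+* ℂ} [RingHomInvPair σ σ'] [RingHomInvPair σ' σ]

/-- `u ↦ (ω ↦ U ω (u (τ ω)))` -/
def lm (τ : Ω ≃ Ω) (U : Ω → H ≃ₛₗᵢ[σ] H') : Li Ω H ≃ₛₗ[σ] Li Ω H' where
  toFun u := mk (fun ω => U ω (u (τ ω))) ⟨‖u‖, fun ω => by
    rw [LinearIsometryEquiv.norm_map]; exact norm_apply_le u _⟩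
  invFun u := mk (fun ω => (U (τ.symm ω)).symm (u (τ.symm ω))) ⟨‖u‖, fun ω => by
    rw [LinearIsometryEquiv.norm_map]; exact norm_apply_le u _⟩
  map_add' u v := by
    ext ω
    simp only [mk_apply, lp.coeFn_add, Pi.add_apply, map_add]
  map_smul' r u := by
    ext ω
    simp only [mk_apply, lp.coeFn_smul, Pi.smul_apply, map_smulₛₗ]
  left_inv u := by
    ext ω
    simp
  right_inv u := by
    ext ω
    simp

@[simp] theorem lm_apply (τ : Ω ≃ Ω) (U : Ω → H ≃ₛₗᵢ[σ] H') (u : Li Ω H) (ω : Ω) :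
    lm τ U u ω = U ω (u (τ ω)) := rfl

/-- `τ` preserves the mean -/
def Inv (τ : Ω ≃ Ω) : Prop := ∀ f : Ω → ℝ, Bdd f → μ.m (fun ω => f (τ ω)) = μ.m f

theorem inv_refl : Inv μ (Equiv.refl Ω) := fun _ _ => rfl

variable {μ}

theorem norm_lm {τ : Ω ≃ Ω} (hτ : Inv μ τ) (U : Ω → H ≃ₛₗᵢ[σ] H') (u : Li Ω H) :
    ‖il μ (lm τ U u)‖ = ‖il μ u‖ := by
  apply (pow_left_inj₀ (norm_nonneg _) (norm_nonneg _) two_ne_zero).1
  rw [norm_il_sq, norm_il_sq, ← hτ _ (bdd_sq u)]
  simp only [lm_apply, LinearIsometryEquiv.norm_map]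

/-- the induced isometry of the mean square spaces -/
def map {τ : Ω ≃ Ω} (hτ : Inv μ τ) (U : Ω → H ≃ₛₗᵢ[σ] H') : Ms μ H ≃ₛₗᵢ[σ] Ms μ H' :=
  (lm τ U).extendOfIsometry (il μ) (il μ) (dense_il μ) (dense_il μ) (norm_lm hτ U)

theorem map_i {τ : Ω ≃ Ω} (hτ : Inv μ τ) (U : Ω → H ≃ₛₗᵢ[σ] H') (u : Li Ω H) :
    map hτ U (i μ u) = i μ (lm τ U u) :=
  LinearEquiv.extendOfIsometry_eq _ _ _ _ _ _ u

end iso

/-! ### holomorphic families -/

section hol

variable {E : Type*} [NormedAddCommGroup E] [NormedSpace ℂ E]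

/-- a uniformly bounded family of holomorphic maps is a holomorphic map to `Li` -/
theorem differentiableOn_li [CompleteSpace H] {F : E → Li Ω H} {U : Set E} (hU : IsOpen U)
    (hd : ∀ ω, DifferentiableOn ℂ (fun z => F z ω) U)
    (hb : ∀ z ∈ U, ∃ C, ∀ᶠ w in 𝓝 z, ‖F w‖ ≤ C) : DifferentiableOn ℂ F U := by
  intro z hz
  obtain ⟨C, hC⟩ := hb z hz
  obtain ⟨R, hR, hRU⟩ := Metric.mem_nhds_iff.1 (inter_mem hC (hU.mem_nhds hz))
  have hC0 : 0 ≤ C := (norm_nonneg _).trans (hRU (Metric.mem_ball_self hR)).1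
  have hdb : ∀ ω, DifferentiableOn ℂ (fun z => F z ω) (Metric.ball z R) :=
    fun ω => (hd ω).mono fun w hw => (hRU hw).2
  have hmap : ∀ ω, Set.MapsTo (fun w => F w ω) (Metric.ball z R)
      (Metric.closedBall (F z ω) (2 * C)) := by
    intro ω w hw
    rw [Metric.mem_closedBall, dist_eq_norm]
    have h1 := (norm_apply_le (F w) ω).trans (hRU hw).1
    have h2 := (norm_apply_le (F z) ω).trans (hRU (Metric.mem_ball_self hR)).1
    exact (norm_sub_le _ _).trans (by linarith)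
  -- first derivatives are bounded
  have hD : ∀ ω, ‖fderiv ℂ (fun w => F w ω) z‖ ≤ 2 * C / R := fun ω =>
    Complex.norm_fderiv_le_div_of_mapsTo_ball (hdb ω) (hmap ω) hR
  let L : E →ₗ[ℂ] Li Ω H :=
    { toFun := fun v => mk (fun ω => fderiv ℂ (fun w => F w ω) z v)
        ⟨2 * C / R * ‖v‖, fun ω => (ContinuousLinearMap.le_opNorm _ _).trans
          (mul_le_mul_of_nonneg_right (hD ω) (norm_nonneg _))⟩
      map_add' := fun v w => by ext ω; simp
      map_smul' := fun r v => by ext ω; simp }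
  let L' : E →L[ℂ] Li Ω H := L.mkContinuous (2 * C / R) fun v =>
    norm_le _ (by positivity) fun ω => (ContinuousLinearMap.le_opNorm _ _).trans
      (mul_le_mul_of_nonneg_right (hD ω) (norm_nonneg _))
  have key : ∀ w ∈ Metric.ball z R, ‖F w - F z - L' (w - z)‖ ≤ 4 * C * (‖w - z‖ / R) ^ 2 := by
    intro w hw
    refine norm_le _ (by positivity) fun ω => ?_
    let g : E → H := fun w => F w ω - fderiv ℂ (fun w => F w ω) z (w - z)
    have hg : DifferentiableOn ℂ g (Metric.ball z R) :=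
      (hdb ω).sub ((ContinuousLinearMap.differentiable _).comp
        (differentiable_id.sub_const z)).differentiableOn
    have hgz : g z = F z ω := by simp [g]
    have hgm : Set.MapsTo g (Metric.ball z R) (Metric.closedBall (g z) (4 * C)) := by
      intro w hw
      rw [Metric.mem_closedBall, dist_eq_norm, hgz]
      have h1 : ‖F w ω - F z ω‖ ≤ 2 * C := by simpa [dist_eq_norm] using hmap ω hw
      have h2 : ‖fderiv ℂ (fun w => F w ω) z (w - z)‖ ≤ 2 * C := by
        refine (ContinuousLinearMap.le_opNorm _ _).trans ?_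
        have h3 : ‖w - z‖ ≤ R := by simpa [dist_eq_norm] using (Metric.mem_ball.1 hw).le
        calc _ ≤ 2 * C / R * R := mul_le_mul (hD ω) h3 (norm_nonneg _) (by positivity)
          _ = 2 * C := by field_simp
      have : g w - F z ω = (F w ω - F z ω) - fderiv ℂ (fun w => F w ω) z (w - z) := by
        simp only [g]; abel
      rw [this]
      exact (norm_sub_le _ _).trans (by linarith)
    have hlo : (fun w => g w - g z) =o[𝓝 z] fun w => ‖w - z‖ ^ 1 := by
      have h1 := (((hdb ω).differentiableAt (Metric.ball_mem_nhds z hR)).hasFDerivAt).isLittleO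
      simp only [pow_one]
      refine (h1.congr_left fun w => ?_).norm_right
      simp only [g, sub_self, map_zero, sub_zero]
      abel
    have := Complex.dist_le_mul_div_pow_of_mapsTo_ball_of_isLittleO hg hgm hlo hw
    rw [dist_eq_norm, dist_eq_norm, hgz] at this
    have h2 : (F w - F z - L' (w - z)) ω = g w - F z ω := by
      simp only [lp.coeFn_sub, Pi.sub_apply, g]
      change _ - fderiv ℂ (fun w => F w ω) z (w - z) = _
      abel
    rw [h2]
    exact this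
  refine HasFDerivAt.differentiableAt (f' := L') ?_ |>.differentiableWithinAt
  rw [hasFDerivAt_iff_isLittleO]
  refine Asymptotics.IsBigO.trans_isLittleO (g := fun w => ‖w - z‖ ^ 2) ?_
    (Asymptotics.isLittleO_pow_sub_sub z one_lt_two)
  refine Asymptotics.IsBigO.of_bound (4 * C / R ^ 2) ?_
  filter_upwards [Metric.ball_mem_nhds z hR] with w hw
  refine (key w hw).trans_eq ?_
  rw [Real.norm_of_nonneg (sq_nonneg _)]
  field_simp

end hol

end

end Crest.Agent.X261.Rel.Ms
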