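import Mathlib

/-!
# X261, package REL (helper34), file `Nz`: sequences which tend to zero in `L¹_loc`

`NulS μ K F`: the upper integrals of `F k` over `K` tend to zero; `NulE μ F y`: the same on a
neighbourhood of `y`.
-/

set_option autoImplicit false
set_option linter.unusedSectionVars false

open Set Filter Topology MeasureTheory
open scoped ENNReal

namespace Crest.Agent.X261.Rel.Nz

noncomputable section

section S

variable {E : Type*} [MeasurableSpace E] {μ : Measure E} {K K' : Set E} {F F' : ℕ → E → ℝ≥0∞}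

/-- the upper integrals over `K` tend to zero -/
def NulS (μ : Measure E) (K : Set E) (F : ℕ → E → ℝ≥0∞) : Prop :=
  ∃ G : ℕ → E → ℝ≥0∞, (∀ k, Measurable (G k)) ∧ (∀ k, ∀ y ∈ K, F k y ≤ G k y) ∧
    Tendsto (fun k => ∫⁻ y in K, G k y ∂μ) atTop (𝓝 0)

theorem NulS.mono (h : NulS μ K F) (hK : K' ⊆ K) (hF : ∀ k, ∀ y ∈ K', F' k y ≤ F k y) :
    NulS μ K' F' := by
  obtain ⟨G, h1, h2, h3⟩ := h
  exact ⟨G, h1, fun k y hy => (hF k y hy).trans (h2 k y (hK hy)),
    tendsto_of_tendsto_of_tendsto_of_le_of_le tendsto_const_nhds h3 (fun _ => zero_le)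
      fun k => lintegral_mono_set hK⟩

theorem NulS.add (h : NulS μ K F) (h' : NulS μ K F') : NulS μ K fun k y => F k y + F' k y := by
  obtain ⟨G, h1, h2, h3⟩ := h
  obtain ⟨G', h1', h2', h3'⟩ := h'
  refine ⟨fun k y => G k y + G' k y, fun k => (h1 k).add (h1' k),
    fun k y hy => add_le_add (h2 k y hy) (h2' k y hy), ?_⟩
  simpa only [lintegral_add_left (h1 _), add_zero] using h3.add h3'

theorem NulS.mul (h : NulS μ K F) {c : ℝ≥0∞} (hc : c ≠ ⊤) : NulS μ K fun k y => c * F k y := by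
  obtain ⟨G, h1, h2, h3⟩ := h
  refine ⟨fun k y => c * G k y, fun k => (h1 k).const_mul c,
    fun k y hy => mul_le_mul_right (h2 k y hy) c, ?_⟩
  simpa only [lintegral_const_mul c (h1 _), mul_zero] using
    ENNReal.Tendsto.const_mul h3 (Or.inr hc)

theorem NulS.union (h : NulS μ K F) (h' : NulS μ K' F) (hK : MeasurableSet K) :
    NulS μ (K ∪ K') F := by
  classical
  obtain ⟨G, h1, h2, h3⟩ := h
  obtain ⟨G', h1', h2', h3'⟩ := h'
  refine ⟨fun k => K.piecewise (G k) (G' k), fun k => (h1 k).piecewise hK (h1' k),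
    fun k y hy => ?_, ?_⟩
  · beta_reduce
    by_cases h : y ∈ K
    · rw [piecewise_eq_of_mem _ _ _ h]; exact h2 k y h
    · rw [piecewise_eq_of_notMem _ _ _ h]; exact h2' k y (hy.resolve_left h)
  · have := h3.add h3'
    rw [add_zero] at this
    refine tendsto_of_tendsto_of_tendsto_of_le_of_le tendsto_const_nhds this (fun _ => zero_le)
      fun k => ?_
    have e : K ∪ K' = K ∪ (K' ∩ Kᶜ) := by rw [← sdiff_eq, union_sdiff_self]
    rw [e]
    refine (lintegral_union_le _ _ _).trans (add_le_add ?_ ?_)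
    · exact (setLIntegral_congr_fun hK (piecewise_eqOn K (G k) (G' k))).le
    · beta_reduce
      rw [inter_comm, ← Measure.restrict_restrict hK.compl,
        setLIntegral_congr_fun hK.compl (piecewise_eqOn_compl K (G k) (G' k))]
      exact setLIntegral_le_lintegral _ _

theorem nulS_of_ae (hF : ∀ k, AEMeasurable (F k) (μ.restrict K))
    (h : Tendsto (fun k => ∫⁻ y in K, F k y ∂μ) atTop (𝓝 0)) : NulS μ K F := by
  classical
  have h1 : ∀ k, ∃ N, MeasurableSet N ∧ μ.restrict K N = 0 ∧ ∀ y ∉ N, F k y = (hF k).mk _ y :=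
    fun k => ⟨toMeasurable (μ.restrict K) {y | F k y = (hF k).mk _ y}ᶜ,
      measurableSet_toMeasurable _ _, by rw [measure_toMeasurable]; exact (hF k).ae_eq_mk,
      fun y hy => by_contra fun h => hy (subset_toMeasurable _ _ h)⟩
  choose N hN h0 hy using h1
  refine ⟨fun k => (N k).piecewise (fun _ => ⊤) ((hF k).mk _),
    fun k => measurable_const.piecewise (hN k) (hF k).measurable_mk, fun k y _ => ?_,
    h.congr fun k => lintegral_congr_ae ?_⟩
  · beta_reduce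
    by_cases h : y ∈ N k
    · rw [piecewise_eq_of_mem _ _ _ h]; exact le_top
    · rw [piecewise_eq_of_notMem _ _ _ h]; exact (hy k y h).le
  · filter_upwards [compl_mem_ae_iff.2 (h0 k)] with y h
    rw [piecewise_eq_of_notMem _ _ _ h]
    exact hy k y h

theorem nulS_of_sq (hK : μ K ≠ ⊤) (hF : ∀ k, AEMeasurable (F k) (μ.restrict K))
    (h : Tendsto (fun k => ∫⁻ y in K, F k y ^ 2 ∂μ) atTop (𝓝 0)) : NulS μ K F := by
  refine nulS_of_ae hF ?_
  have h1 : Tendsto (fun k => (∫⁻ y in K, F k y ^ 2 ∂μ) ^ (1 / 2 : ℝ) * μ K ^ (1 / 2 : ℝ)) atTop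
      (𝓝 ((0 : ℝ≥0∞) ^ (1 / 2 : ℝ) * μ K ^ (1 / 2 : ℝ))) :=
    ENNReal.Tendsto.mul_const ((ENNReal.continuous_rpow_const.tendsto 0).comp h)
      (Or.inr (ENNReal.rpow_ne_top_of_nonneg (by norm_num) hK))
  rw [ENNReal.zero_rpow_of_pos (by norm_num), zero_mul] at h1
  refine tendsto_of_tendsto_of_tendsto_of_le_of_le tendsto_const_nhds h1 (fun _ => zero_le)
    fun k => ?_
  have := ENNReal.lintegral_mul_le_Lp_mul_Lq (μ.restrict K) Real.HolderConjugate.two_two (hF k)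
    (aemeasurable_const (b := (1 : ℝ≥0∞)))
  simpa using this

end S

section E

variable {E : Type*} [MeasurableSpace E] [TopologicalSpace E] {μ : Measure E}
  {F F' : ℕ → E → ℝ≥0∞} {y : E}

/-- the upper integrals over a neighbourhood of `y` tend to zero -/
def NulE (μ : Measure E) (F : ℕ → E → ℝ≥0∞) (y : E) : Prop := ∃ V ∈ 𝓝 y, NulS μ V F

theorem NulS.nulE {V : Set E} (h : NulS μ V F) (hV : V ∈ 𝓝 y) : NulE μ F y := ⟨V, hV, h⟩

theorem NulE.mono (h : NulE μ F y) (hF : ∀ᶠ z in 𝓝 y, ∀ k, F' k z ≤ F k z) : NulE μ F' y := by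
  obtain ⟨V, hV, h⟩ := h
  exact ⟨_, inter_mem hV hF, h.mono inter_subset_left fun k z hz => hz.2 k⟩

theorem NulE.add (h : NulE μ F y) (h' : NulE μ F' y) : NulE μ (fun k z => F k z + F' k z) y := by
  obtain ⟨V, hV, h⟩ := h
  obtain ⟨V', hV', h'⟩ := h'
  exact ⟨_, inter_mem hV hV', (h.mono inter_subset_left fun _ _ _ => le_rfl).add
    (h'.mono inter_subset_right fun _ _ _ => le_rfl)⟩

theorem NulE.mul (h : NulE μ F y) {c : ℝ≥0∞} (hc : c ≠ ⊤) :
    NulE μ (fun k z => c * F k z) y := by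
  obtain ⟨V, hV, h⟩ := h
  exact ⟨V, hV, h.mul hc⟩

theorem nulE_zero : NulE μ (fun _ _ => 0) y :=
  ⟨univ, univ_mem, fun _ _ => 0, fun _ => measurable_const, fun _ _ _ => le_rfl, by simp⟩

theorem NulE.eventually (h : NulE μ F y) : ∀ᶠ z in 𝓝 y, NulE μ F z := by
  obtain ⟨V, hV, h⟩ := h
  exact (eventually_mem_nhds_iff.2 hV).mono fun z hz => ⟨V, hz, h⟩

variable [OpensMeasurableSpace E]

theorem exists_nulS {K : Set E} (hK : IsCompact K) (h : ∀ z ∈ K, NulE μ F z) :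
    ∃ V ∈ 𝓝ˢ K, NulS μ V F := by
  refine hK.induction_on (p := fun s => ∃ V ∈ 𝓝ˢ s, NulS μ V F) ⟨∅, by simp, ?_⟩ ?_ ?_ ?_
  · exact ⟨fun _ _ => 0, fun _ => measurable_const, fun _ _ h => h.elim, by simp⟩
  · rintro s t hst ⟨V, hV, h⟩
    exact ⟨V, nhdsSet_mono hst hV, h⟩
  · rintro s t ⟨V, hV, h⟩ ⟨W, hW, h'⟩
    refine ⟨interior V ∪ W, union_mem_nhdsSet ?_ hW,
      (h.mono interior_subset fun _ _ _ => le_rfl).union h' isOpen_interior.measurableSet⟩
    exact isOpen_interior.mem_nhdsSet.2 (subset_interior_iff_mem_nhdsSet.2 hV)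
  · intro x hx
    obtain ⟨V, hV, h⟩ := h x hx
    exact ⟨interior V, mem_nhdsWithin_of_mem_nhds (interior_mem_nhds.2 hV), V,
      mem_nhdsSet_interior, h⟩

theorem not_nulE [μ.IsOpenPosMeasure] {c : ℝ≥0∞} (hc : c ≠ 0)
    (hF : ∀ᶠ z in 𝓝 y, ∀ k, c ≤ F k z) : ¬ NulE μ F y := by
  rintro ⟨V, hV, h⟩
  obtain ⟨W, hW, ho, hy⟩ := mem_nhds_iff.1 (inter_mem hV hF)
  obtain ⟨G, -, h2, h3⟩ := h.mono (K' := W) (F' := fun _ _ => c) (fun z hz => (hW hz).1)
    fun k z hz => (hW hz).2 k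
  have h4 : ∀ k, c * μ W ≤ ∫⁻ z in W, G k z ∂μ := fun k => by
    rw [← setLIntegral_const]
    exact setLIntegral_mono' ho.measurableSet (h2 k)
  have h5 := ge_of_tendsto' h3 h4
  exact mul_ne_zero hc (ho.measure_ne_zero μ ⟨y, hy⟩) (le_zero_iff.1 h5)

theorem eq_zero_of_nulE [μ.IsOpenPosMeasure] {H : Type*} [NormedAddCommGroup H] {u : E → H}
    (hu : ContinuousAt u y) (h : NulE μ (fun _ z => ‖u z‖ₑ) y) : u y = 0 := by
  by_contra h0
  have h1 : ‖u y‖ₑ / 2 < ‖u y‖ₑ := ENNReal.half_lt_self (by simpa using h0) enorm_ne_top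
  refine not_nulE (c := ‖u y‖ₑ / 2) (ENNReal.div_pos (by simpa using h0) (by norm_num)).ne' ?_ h
  filter_upwards [hu.enorm.eventually (lt_mem_nhds h1)] with z hz _ using hz.le

end E

/-! ### averages over plaques -/

section avg

variable {E₁ E₂ : Type*} [MeasurableSpace E₁] [TopologicalSpace E₁] [OpensMeasurableSpace E₁]
  [MeasurableSpace E₂] [TopologicalSpace E₂] [OpensMeasurableSpace E₂]
  [OpensMeasurableSpace (E₁ × E₂)] [T2Space E₂]
  {μ₁ : Measure E₁} {μ₂ : Measure E₂} [SFinite μ₂] [SFinite μ₁] [IsLocallyFiniteMeasure μ₂]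
  {H : Type*} [NormedAddCommGroup H] [NormedSpace ℝ H]

theorem nulE_avg {Q : Set E₂} (hQ : IsCompact Q) (h0 : μ₂ Q ≠ 0) {g : ℕ → E₁ × E₂ → H} {t : E₁}
    (h : ∀ w ∈ Q, NulE (μ₁.prod μ₂) (fun k y => ‖g k y‖ₑ) (t, w)) (w₀ : E₂) :
    NulE (μ₁.prod μ₂) (fun k y => ‖⨍ w in Q, g k (y.1, w) ∂μ₂‖ₑ) (t, w₀) := by
  obtain ⟨V, hV, hS⟩ := exists_nulS (isCompact_singleton.prod hQ)
    (F := fun k y => ‖g k y‖ₑ) (by rintro ⟨s, w⟩ ⟨rfl, hw⟩; exact h w hw)
  rw [isCompact_singleton.nhdsSet_prod_eq hQ, nhdsSet_singleton] at hV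
  obtain ⟨W₀, hW₀, Q', hQ', hsub⟩ := mem_prod_iff.1 hV
  obtain ⟨W, hW, hWo, ht⟩ := mem_nhds_iff.1 hW₀
  obtain ⟨O, hO, hOo, hOf⟩ := μ₂.exists_isOpen_measure_lt_top w₀
  obtain ⟨G, h1, h2, h3⟩ := hS.mono (K' := W ×ˢ Q)
    (fun y hy => hsub ⟨hW hy.1, subset_of_mem_nhdsSet hQ' hy.2⟩) fun _ _ _ => le_rfl
  have hm : ∀ k, Measurable fun s => ∫⁻ w in Q, G k (s, w) ∂μ₂ := fun k =>
    (h1 k).lintegral_prod_right'
  refine ⟨W ×ˢ O, prod_mem_nhds (hWo.mem_nhds ht) (hOo.mem_nhds hO),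
    fun k y => (μ₂ Q)⁻¹ * ∫⁻ w in Q, G k (y.1, w) ∂μ₂,
    fun k => ((hm k).comp measurable_fst).const_mul _, fun k y hy => ?_, ?_⟩
  · beta_reduce
    rw [setAverage_eq, enorm_smul]
    refine mul_le_mul' (le_of_eq ?_) ((enorm_integral_le_lintegral_enorm _).trans
      (setLIntegral_mono' hQ.measurableSet fun w hw => h2 k _ ⟨hy.1, hw⟩))
    rw [Real.enorm_of_nonneg (by positivity), measureReal_def, ENNReal.ofReal_inv_of_pos
      (ENNReal.toReal_pos h0 hQ.measure_lt_top.ne), ENNReal.ofReal_toReal hQ.measure_lt_top.ne]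
  · have h4 := ENNReal.Tendsto.const_mul (a := (μ₂ Q)⁻¹ * μ₂ O) h3
      (Or.inr (ENNReal.mul_ne_top (ENNReal.inv_ne_top.2 h0) hOf.ne))
    rw [mul_zero] at h4
    refine h4.congr fun k => ?_
    rw [← Measure.prod_restrict, ← Measure.prod_restrict, lintegral_prod _ (h1 k).aemeasurable,
      lintegral_prod (fun y : E₁ × E₂ => (μ₂ Q)⁻¹ * ∫⁻ w in Q, G k (y.1, w) ∂μ₂)
        (((hm k).comp measurable_fst).const_mul _).aemeasurable,
      ← lintegral_const_mul _ (hm k)]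
    refine lintegral_congr fun s => ?_
    simp only [lintegral_const, Measure.restrict_apply_univ]
    ring

end avg

/-! ### change of variables -/

section cov

variable {E E' : Type*} [NormedAddCommGroup E] [NormedSpace ℝ E] [FiniteDimensional ℝ E]
  [MeasurableSpace E] [BorelSpace E] [NormedAddCommGroup E'] [NormedSpace ℝ E']
  [FiniteDimensional ℝ E'] [MeasurableSpace E'] [BorelSpace E']
  {μ : Measure E} {μ' : Measure E'} [μ.IsAddHaarMeasure] [μ'.IsAddHaarMeasure]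

theorem NulE.image (ψ : OpenPartialHomeomorph E E') {y : E} (hy : y ∈ ψ.source)
    (h1 : ContDiffAt ℝ 1 ψ y) (h2 : DifferentiableAt ℝ ψ.symm (ψ y)) {F : ℕ → E' → ℝ≥0∞}
    (h : NulE μ (fun k z => F k (ψ z)) y) : NulE μ' F (ψ y) := by
  classical
  have hd := (h1.differentiableAt one_ne_zero).hasFDerivAt
  let L : E ≃L[ℝ] E' := ContinuousLinearEquiv.equivOfInverse (fderiv ℝ ψ y)
    (fderiv ℝ ψ.symm (ψ y)) (fun v => by
      have h3 := (h2.hasFDerivAt.comp y hd).unique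
        ((hasFDerivAt_id y).congr_of_eventuallyEq (ψ.eventually_left_inverse hy))
      exact congrArg (fun T : E →L[ℝ] E => T v) h3) (fun v => by
      have hd' : HasFDerivAt ψ (fderiv ℝ ψ y) (ψ.symm (ψ y)) := by rwa [ψ.left_inv hy]
      have h3 := (hd'.comp (ψ y) h2.hasFDerivAt).unique
        ((hasFDerivAt_id (ψ y)).congr_of_eventuallyEq
          (ψ.eventually_right_inverse (ψ.map_source hy)))
      exact congrArg (fun T : E' →L[ℝ] E' => T v) h3)
  obtain ⟨V, hV, hS⟩ := h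
  have hc : ContinuousAt (fun z => |((L.symm : E' →L[ℝ] E) ∘L fderiv ℝ ψ z).det|) y :=
    (ContinuousLinearMap.continuous_det.continuousAt.comp
      (continuousAt_const.clm_comp (h1.continuousAt_fderiv one_ne_zero))).abs
  set C := |((L.symm : E' →L[ℝ] E) ∘L fderiv ℝ ψ y).det| + 1
  obtain ⟨W, hW, hWo, hyW⟩ := mem_nhds_iff.1 (inter_mem (inter_mem hV (ψ.open_source.mem_nhds hy))
    ((h1.eventually (by simp)).and (hc.eventually (gt_mem_nhds (lt_add_one _)))))
  obtain ⟨G, g1, g2, g3⟩ := hS.mono (K' := W) (fun z hz => (hW hz).1.1) fun _ _ _ => le_rfl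
  have hWs : W ⊆ ψ.source := fun z hz => (hW hz).1.2
  have ho : IsOpen (ψ '' W) := ψ.isOpen_image_of_subset_source hWo hWs
  let σ : E' → E := ψ.target.piecewise ψ.symm fun _ => 0
  have hσ : Measurable σ :=
    ψ.continuousOn_symm.measurable_piecewise continuousOn_const ψ.open_target.measurableSet
  have hσψ : ∀ z ∈ W, σ (ψ z) = z := fun z hz => by
    simp only [σ, piecewise_eq_of_mem _ _ _ (ψ.map_source (hWs hz)), ψ.left_inv (hWs hz)]
  refine ⟨ψ '' W, ho.mem_nhds ⟨y, hyW, rfl⟩, fun k z => G k (σ z), fun k => (g1 k).comp hσ, ?_, ?_⟩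
  · rintro k _ ⟨z, hz, rfl⟩
    beta_reduce
    rw [hσψ z hz]
    exact g2 k z hz
  · set c := Measure.addHaarScalarFactor μ' (μ.map L)
    have hμ : μ' = c • μ.map L := Measure.isAddLeftInvariant_eq_smul _ _
    have h4 := ENNReal.Tendsto.const_mul (a := (c : ℝ≥0∞) * ENNReal.ofReal C) g3
      (Or.inr (ENNReal.mul_ne_top ENNReal.coe_ne_top ENNReal.ofReal_ne_top))
    rw [mul_zero] at h4
    refine tendsto_of_tendsto_of_tendsto_of_le_of_le tendsto_const_nhds h4 (fun _ => zero_le)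
      fun k => ?_
    have e1 : L ⁻¹' (ψ '' W) = (fun z => L.symm (ψ z)) '' W := by
      rw [← image_image L.symm ψ, L.image_symm_eq_preimage]
    have e2 : ∫⁻ z in ψ '' W, G k (σ z) ∂μ' =
        c * ∫⁻ z in (fun z => L.symm (ψ z)) '' W, G k (σ (L z)) ∂μ := by
      rw [hμ, Measure.restrict_smul, lintegral_smul_measure,
        setLIntegral_map (f := fun z => G k (σ z)) ho.measurableSet ((g1 k).comp hσ)
          L.continuous.measurable, e1]
      rfl
    rw [e2, lintegral_image_eq_lintegral_abs_det_fderiv_mul μ hWo.measurableSet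
      (f := fun z => L.symm (ψ z)) (f' := fun z => (L.symm : E' →L[ℝ] E) ∘L fderiv ℝ ψ z)
      (fun z hz => ((L.symm : E' →L[ℝ] E).hasFDerivAt.comp z
        ((hW hz).2.1.differentiableAt one_ne_zero).hasFDerivAt).hasFDerivWithinAt)
      (L.symm.injective.comp_injOn (ψ.injOn.mono hWs)), mul_assoc,
      ← lintegral_const_mul _ (g1 k)]
    refine mul_le_mul_right (setLIntegral_mono' hWo.measurableSet fun z hz => ?_) _
    rw [L.apply_symm_apply, hσψ z hz]
    exact mul_le_mul_left (ENNReal.ofReal_le_ofReal (hW hz).2.2.le) _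

end cov

end

end Crest.Agent.X261.Rel.Nz
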