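import Crest.Agent.X261.Rel.Box
import Mathlib.MeasureTheory.Integral.CurveIntegral.Poincare

/-!
# X261, package REL (helper36), file `Prim`: holomorphic primitive along the fibres

* `dF`, `dF_w1`, `dF_wdg` : the exterior derivative in coordinates, `d (df_1 ∧ … ∧ df_m) = 0`;
* `vprim`    : Poincaré lemma along the second factor of a product, holomorphic parameters;
* `Box.prim` : a closed horizontal form `S` of degree `q + 1` is `dΦ ∧ τ` on a box.
-/

set_option autoImplicit false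
set_option linter.unusedSectionVars false

open Set Filter Topology Metric Matrix

noncomputable section

namespace Crest.Agent.X261.Rel.Bx

open Crest.Agent.R275.Geo (Cn dbj)
open Crest.Agent.R275.OmT75 (dj dj_congr)
open Crest.Agent.R273.Fock_243 (FI eW iW ep eW_anti eW_eq_sum)
open Crest.Agent.X261.Plk

variable {n q : ℕ} {Y : Type*} [NormedAddCommGroup Y] [NormedSpace ℂ Y]

/-- the exterior derivative `∂` in coordinates -/
def dF (S : Cn n → FI n → Y) (z : Cn n) : FI n → Y :=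
  ∑ b, mv (eW (ep b)) fun I => dj b (fun y => S y I) z

theorem dF_congr {S S' : Cn n → FI n → Y} {z : Cn n} (h : S =ᶠ[𝓝 z] S') : dF S z = dF S' z := by
  unfold dF
  refine Finset.sum_congr rfl fun b _ => congrArg _ (funext fun I => dj_congr ?_)
  filter_upwards [h] with y hy using congrFun hy I

theorem dj_w1 {τ : Cn n → FI n → ℂ} {η : Cn n → Fin n → Y} {z : Cn n}
    (hτ : ∀ I, DifferentiableAt ℂ (fun y => τ y I) z)
    (hη : ∀ c, DifferentiableAt ℂ (fun y => η y c) z) (b : Fin n) :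
    (fun I => dj b (fun y => w1 (τ y) (η y) I) z) =
      w1 (τ z) (fun c => dj b (fun y => η y c) z) + w1 (fun I => dj b (fun y => τ y I) z) (η z) := by
  funext I
  have h : HasFDerivAt (fun y => ∑ c, (∑ J, (eW (ep c) : Matrix _ _ ℂ) I J * τ y J) • η y c)
      (∑ c, ((∑ J, (eW (ep c) : Matrix _ _ ℂ) I J * τ z J) • fderiv ℂ (fun y => η y c) z +
        (∑ J, (eW (ep c) : Matrix _ _ ℂ) I J • fderiv ℂ (fun y => τ y J) z).smulRight (η z c))) z :=
    HasFDerivAt.fun_sum fun c _ => (HasFDerivAt.fun_sum fun J _ =>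
      (hτ J).hasFDerivAt.const_mul _).fun_smul (hη c).hasFDerivAt
  have h' : HasFDerivAt (fun y => w1 (τ y) (η y) I) _ z := h
  rw [dj_eq_fderiv h'.differentiableAt, h'.fderiv]
  simp only [dj_eq_fderiv (hτ _), dj_eq_fderiv (hη _), _root_.sum_apply, _root_.add_apply,
    _root_.smul_apply, ContinuousLinearMap.smulRight_apply, Finset.sum_add_distrib, Pi.add_apply]
  rfl

theorem eW_eW (v w : Fin n → ℂ) (f : FI n → ℂ) : eW v *ᵥ (eW w *ᵥ f) = -(eW w *ᵥ (eW v *ᵥ f)) := by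
  rw [mulVec_mulVec, mulVec_mulVec, eq_neg_of_add_eq_zero_left (eW_anti v w), neg_mulVec]

theorem dF_w1 {τ : Cn n → FI n → ℂ} {η : Cn n → Fin n → Y} {z : Cn n}
    (hτ : ∀ I, DifferentiableAt ℂ (fun y => τ y I) z)
    (hη : ∀ c, DifferentiableAt ℂ (fun y => η y c) z) (h0 : dF τ z = 0) (I : FI n) :
    dF (fun y => w1 (τ y) (η y)) z I =
      ∑ b, ∑ c, (eW (ep b) *ᵥ (eW (ep c) *ᵥ τ z)) I • dj b (fun y => η y c) z := by
  have h1 : ∀ (b : Fin n) (τ' : FI n → ℂ) (η' : Fin n → Y), mv (eW (ep b)) (w1 τ' η') I =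
      ∑ c, (eW (ep b) *ᵥ (eW (ep c) *ᵥ τ')) I • η' c := fun b τ' η' =>
    congrFun (mv_fsum (eW (ep b)) (fun c => eW (ep c) *ᵥ τ') η') I
  unfold dF
  simp only [dj_w1 hτ hη, mv_add', Finset.sum_apply, Pi.add_apply, h1, Finset.sum_add_distrib]
  rw [add_eq_left, Finset.sum_comm]
  refine Finset.sum_eq_zero fun c _ => ?_
  rw [← Finset.sum_smul, ← Finset.sum_apply]
  have h2 : ∑ b, eW (ep b) *ᵥ (eW (ep c) *ᵥ fun I => dj b (fun y => τ y I) z) =
      -(eW (ep c) *ᵥ dF τ z) := by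
    rw [dF, mulVec_sum, ← Finset.sum_neg_distrib]
    exact Finset.sum_congr rfl fun b _ => eW_eW _ _ _
  rw [h2, h0, mulVec_zero, neg_zero, Pi.zero_apply, zero_smul]

theorem an_dj {f : Cn n → Y} [CompleteSpace Y] {z : Cn n} (hf : AnalyticAt ℂ f z) (b : Fin n) :
    AnalyticAt ℂ (fun y => dj b f y) z :=
  (((ContinuousLinearMap.apply ℂ Y (EuclideanSpace.single b (1 : ℂ) : Cn n)).analyticAt _).comp
    hf.fderiv).congr
    (hf.eventually_analyticAt.mono fun _ hy => (dj_eq_fderiv hy.differentiableAt b).symm)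

theorem dj_dj {f : Cn n → Y} [CompleteSpace Y] {z : Cn n} (hf : AnalyticAt ℂ f z) (b c : Fin n) :
    dj b (fun y => dj c f y) z = dj c (fun y => dj b f y) z := by
  have h : ∀ b c : Fin n, dj b (fun y => dj c f y) z = fderiv ℂ (fderiv ℂ f) z
      (EuclideanSpace.single b 1) (EuclideanSpace.single c 1) := by
    intro b c
    rw [dj_congr (hf.eventually_analyticAt.mono fun _ hy => dj_eq_fderiv hy.differentiableAt c)]
    have h1 : HasFDerivAt (fun y => fderiv ℂ f y (EuclideanSpace.single c 1))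
        ((ContinuousLinearMap.apply ℂ Y (EuclideanSpace.single c (1 : ℂ) : Cn n)).comp
          (fderiv ℂ (fderiv ℂ f) z)) z :=
      (ContinuousLinearMap.apply ℂ Y (EuclideanSpace.single c (1 : ℂ) : Cn n)).hasFDerivAt.comp z
        hf.fderiv.differentiableAt.hasFDerivAt
    rw [dj_eq_fderiv h1.differentiableAt, h1.fderiv]
    rfl
  rw [h, h]
  exact hf.contDiffAt.isSymmSndFDerivAt (n := ⊤) (by simp) _ _

theorem an_wdg {m : ℕ} {v : Cn n → Fin m → Fin n → ℂ} {z : Cn n}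
    (hv : ∀ k b, DifferentiableAt ℂ (fun y => v y k b) z) (I : FI n) :
    DifferentiableAt ℂ (fun y => Top.wdg (v y) I) z := by
  induction m generalizing I with
  | zero => simp only [wdg_nil]; exact differentiableAt_const _
  | succ m ih =>
    simp only [wdg_succ, eW_mulVec_apply]
    exact DifferentiableAt.fun_sum fun j _ =>
      ((differentiableAt_const _).mul (hv 0 j)).mul (ih (fun k b => hv k.succ b) _)

/-- `d (df_1 ∧ … ∧ df_m) = 0` -/
theorem dF_wdg {m : ℕ} {f : Fin m → Cn n → ℂ} {z : Cn n} (hf : ∀ k, AnalyticAt ℂ (f k) z) :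
    dF (fun y => Top.wdg fun k c => dj c (f k) y) z = 0 := by
  induction m with
  | zero =>
    simp only [wdg_nil, dF]
    refine Finset.sum_eq_zero fun b _ => ?_
    have : (fun I => dj b (fun _ : Cn n => vac n I) z) = 0 := by
      funext I
      simp [dj]
    rw [this, mv_zero']
  | succ m ih =>
    have h1 : (fun y => Top.wdg fun k c => dj c (f k) y) = fun y =>
        w1 (Top.wdg fun (k : Fin m) c => dj c (f k.succ) y) fun c => dj c (f 0) y := by
      funext y I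
      rw [wdg_succ, eW_eq_sum, sum_mulVec, Finset.sum_apply]
      refine Finset.sum_congr rfl fun c _ => ?_
      rw [smul_mulVec, Pi.smul_apply, smul_eq_mul, smul_eq_mul, mul_comm]
    rw [h1]
    funext I
    rw [dF_w1 (an_wdg fun k b => (an_dj (hf k.succ) b).differentiableAt)
      (fun c => (an_dj (hf 0) c).differentiableAt) (ih fun k => hf k.succ)]
    set T := ∑ b, ∑ c, (eW (ep b) *ᵥ (eW (ep c) *ᵥ Top.wdg fun (k : Fin m) c =>
      dj c (f k.succ) z)) I • dj b (fun y => dj c (f 0) y) z with hT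
    have h2 : T = -T := by
      conv_lhs => rw [hT, Finset.sum_comm]
      rw [hT, ← Finset.sum_neg_distrib]
      refine Finset.sum_congr rfl fun b _ => ?_
      rw [← Finset.sum_neg_distrib]
      refine Finset.sum_congr rfl fun c _ => ?_
      rw [eW_eW, dj_dj (hf 0) c b, Pi.neg_apply, neg_smul]
    exact self_eq_neg.1 h2

theorem iW_iW {th : Fin q → Fin n → ℂ} {v v' : Fin n → ℂ} (hv : v ∈ kerF th) (hv' : v' ∈ kerF th)
    (b c : Fin n) : iW v' *ᵥ (iW v *ᵥ (eW (ep b) *ᵥ (eW (ep c) *ᵥ Top.wdg th))) =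
      (v b * v' c - v c * v' b) • Top.wdg th := by
  have h : ∀ (b : Fin n) (w : Fin n → ℂ), ∑ j, (ep b : Fin n → ℂ) j * w j = w b := fun b w => by
    simp [Pi.single_apply]
  simp only [iW_eW_mulVec, iW_wdg_of_ker hv, iW_wdg_of_ker hv', h, mulVec_zero, sub_zero,
    mulVec_sub, mulVec_smul, smul_smul, sub_smul]

/-- if `η ∧ τ` is closed, `dη` vanishes on vertical vectors -/
theorem sym_of_closed {a : Cn n → Cn q} {η : Cn n → Fin n → Y} {z : Cn n} (ha : AnalyticAt ℂ a z)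
    (hη : ∀ c, DifferentiableAt ℂ (fun y => η y c) z) {J : FI n} (hJ : ta a z J ≠ 0)
    (hc : dF (fun y => w1 (ta a y) (η y)) z = 0) {v v' : Fin n → ℂ} (hv : v ∈ kerF (th a z))
    (hv' : v' ∈ kerF (th a z)) :
    ∑ c, v' c • ∑ b, v b • dj b (fun y => η y c) z =
      ∑ c, v c • ∑ b, v' b • dj b (fun y => η y c) z := by
  have h0 : dF (ta a) z = 0 := dF_wdg (f := fun k y => a y k) fun k =>
    ((EuclideanSpace.proj k : Cn q →L[ℂ] ℂ).analyticAt _).comp ha
  have h1 : dF (fun y => w1 (ta a y) (η y)) z = fun I => ∑ p : Fin n × Fin n,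
      (eW (ep p.1) *ᵥ (eW (ep p.2) *ᵥ ta a z)) I • dj p.1 (fun y => η y p.2) z := by
    funext I
    rw [dF_w1 (fun I => (an_ta ha I).differentiableAt) hη h0, Fintype.sum_prod_type]
  have h2 : mv (iW v') (mv (iW v) (dF (fun y => w1 (ta a y) (η y)) z)) J = 0 := by
    rw [hc, mv_zero', mv_zero', Pi.zero_apply]
  rw [h1, mv_fsum, mv_fsum] at h2
  simp only [ta, iW_iW hv hv', Pi.smul_apply, smul_eq_mul, mul_comm _ (Top.wdg (th a z) J),
    mul_smul, ← Finset.smul_sum] at h2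
  have h3 := (smul_eq_zero.1 h2).resolve_left hJ
  simp only [sub_smul, Finset.sum_sub_distrib, Fintype.sum_prod_type, sub_eq_zero] at h3
  simp only [Finset.smul_sum, smul_smul]
  rw [Finset.sum_comm]
  conv_rhs => rw [Finset.sum_comm]
  simpa only [mul_comm] using h3

/-- Poincaré lemma along the second factor -/
theorem vprim {E F : Type*} [NormedAddCommGroup E] [NormedSpace ℂ E] [FiniteDimensional ℂ E]
    [NormedAddCommGroup F] [NormedSpace ℂ F] [FiniteDimensional ℂ F] [CompleteSpace Y]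
    {θ : E × F → F →L[ℂ] Y} {t₀ : E} {ρ : ℝ}
    (hθ : DifferentiableOn ℂ θ (ball (t₀, 0) ρ))
    (hs : ∀ u ∈ ball (t₀, (0 : F)) ρ, ∀ x y, fderiv ℂ θ u (0, x) y = fderiv ℂ θ u (0, y) x) :
    ∃ Ψ : E × F → Y, AnalyticOnNhd ℂ Ψ (ball (t₀, 0) ρ) ∧ (∀ t, Ψ (t, 0) = 0) ∧
      ∀ u ∈ ball (t₀, (0 : F)) ρ, ∀ w, fderiv ℂ Ψ u (0, w) = θ u w := by
  have hm : ∀ u : E × F, u ∈ ball (t₀, (0 : F)) ρ ↔ u.1 ∈ ball t₀ ρ ∧ u.2 ∈ ball 0 ρ := fun u => by
    rw [← ball_prod_same]; rfl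
  have hm2 : ∀ w ∈ ball (0 : F) ρ, ∀ σ ∈ uIcc (0 : ℝ) 1, σ • w ∈ ball (0 : F) ρ := by
    intro w hw σ hσ
    rw [uIcc_of_le zero_le_one] at hσ
    rw [mem_ball_zero_iff] at hw ⊢
    rw [norm_smul, Real.norm_of_nonneg hσ.1]
    exact (mul_le_of_le_one_left (norm_nonneg _) hσ.2).trans_lt hw
  have hm3 : ∀ u ∈ ball (t₀, (0 : F)) ρ, ∀ σ ∈ uIcc (0 : ℝ) 1,
      (u.1, σ • u.2) ∈ ball (t₀, (0 : F)) ρ := fun u hu σ hσ =>
    (hm _).2 ⟨((hm u).1 hu).1, hm2 _ ((hm u).1 hu).2 σ hσ⟩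
  set g : (E × F) × ℝ → Y := fun p => θ (p.1.1, p.2 • p.1.2) p.1.2 with hg
  have hgc : ContinuousOn g (ball (t₀, (0 : F)) ρ ×ˢ uIcc (0 : ℝ) 1) :=
    (hθ.continuousOn.comp (f := fun p : (E × F) × ℝ => (p.1.1, p.2 • p.1.2)) (by fun_prop)
      fun p hp => hm3 _ hp.1 _ hp.2).clm_apply (by fun_prop)
  have hΨ : AnalyticOnNhd ℂ (fun u => ∫ σ in (0 : ℝ)..1, g (u, σ)) (ball (t₀, (0 : F)) ρ) := by
    refine R266.SCV.analyticOnNhd_intervalIntegral isOpen_ball hgc fun σ hσ => ?_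
    have h1 : Differentiable ℂ fun u : E × F => (u.1, σ • u.2) := by
      have : (fun u : E × F => (u.1, σ • u.2)) = fun u => (u.1, (σ : ℂ) • u.2) := by
        funext u; rw [Complex.coe_smul]
      rw [this]; fun_prop
    exact (hθ.comp h1.differentiableOn fun u hu => hm3 u hu σ hσ).clm_apply (by fun_prop)
  refine ⟨_, hΨ, fun t => by simp [hg], fun u hu w => ?_⟩
  obtain ⟨t, w₀⟩ := u
  have ht := ((hm _).1 hu).1
  have hd : ∀ x ∈ ball (0 : F) ρ, HasFDerivAt (fun x => θ (t, x))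
      (((fderiv ℂ θ (t, x)).comp (ContinuousLinearMap.inr ℂ E F)).restrictScalars ℝ) x :=
    fun x hx => ((hθ.differentiableAt (isOpen_ball.mem_nhds ((hm (t, x)).2 ⟨ht, hx⟩))
      ).hasFDerivAt.comp x (hasFDerivAt_prodMk_right t x)).restrictScalars ℝ
  obtain ⟨f, hf⟩ := (convex_ball (0 : F) ρ).exists_forall_hasFDerivAt_of_fderiv_symmetric
    (ω := fun x => θ (t, x)) isOpen_ball
    (fun x hx => (hd x hx).differentiableAt.differentiableWithinAt) fun x hx y y' => by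
      rw [(hd x hx).fderiv]
      exact hs _ ((hm (t, x)).2 ⟨ht, hx⟩) y y'
  have key : ∀ y ∈ ball (0 : F) ρ, ∫ σ in (0 : ℝ)..1, g ((t, y), σ) = f y - f 0 := by
    intro y hy
    have h1 : ∀ σ ∈ uIcc (0 : ℝ) 1, HasDerivAt (fun σ : ℝ => f (σ • y)) (g ((t, y), σ)) σ := by
      intro σ hσ
      have h2 : HasDerivAt (fun σ : ℝ => σ • y) y σ := by
        simpa using (hasDerivAt_id σ).smul_const y
      exact ((hf _ (hm2 y hy σ hσ)).restrictScalars ℝ).comp_hasDerivAt σ h2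
    have h3 : ContinuousOn (fun σ => g ((t, y), σ)) (uIcc (0 : ℝ) 1) :=
      hgc.comp (by fun_prop) fun σ hσ => ⟨(hm (t, y)).2 ⟨ht, hy⟩, hσ⟩
    rw [intervalIntegral.integral_eq_sub_of_hasDerivAt h1 h3.intervalIntegrable]
    simp
  have hw := ((hm _).1 hu).2
  have h4 : HasFDerivAt (fun y => ∫ σ in (0 : ℝ)..1, g ((t, y), σ)) (θ (t, w₀)) w₀ :=
    ((hf w₀ hw).sub_const (f 0)).congr_of_eventuallyEq
      (eventually_of_mem (isOpen_ball.mem_nhds hw) key)
  have h5 := (hΨ _ hu).differentiableAt.hasFDerivAt.comp w₀ (hasFDerivAt_prodMk_right t w₀)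
  exact congrArg (fun L => L w) (h5.unique h4)

namespace Box

variable {a : Cn n → Cn q} {z₀ : Cn n} {U : Set (Cn n)} (B : Box a z₀ U)

theorem vert_dj {u : Cn q × Cn B.r} (hu : u ∈ B.s.source) {g : Cn n → Y}
    (hg : DifferentiableAt ℂ g (B.s u)) (w : Cn B.r) :
    ∑ b, B.V u w b • dj b g (B.s u) = fderiv ℂ (fun v => g (B.s v)) u (0, w) := by
  have h := hg.hasFDerivAt.comp u (B.an u hu).differentiableAt.hasFDerivAt
  simp only [dj_eq_fderiv hg]
  rw [← clm_toLp]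
  exact (congrArg (fun L => L (0, w)) h.fderiv).symm

/-- the vertical part of a `1`-form, in the coordinates of the box -/
def vt (η : Cn n → Fin n → Y) (u : Cn q × Cn B.r) : Cn B.r →L[ℂ] Y :=
  ∑ c, (((EuclideanSpace.proj c : Cn n →L[ℂ] ℂ).comp (fderiv ℂ B.s u)).comp
    (ContinuousLinearMap.inr ℂ _ _)).smulRight (η (B.s u) c)

theorem vt_apply (η : Cn n → Fin n → Y) (u : Cn q × Cn B.r) (w : Cn B.r) :
    B.vt η u w = ∑ c, B.V u w c • η (B.s u) c := by
  simp only [vt, _root_.sum_apply, ContinuousLinearMap.smulRight_apply]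
  rfl

theorem diff_vt {η : Cn n → Fin n → Y} {u : Cn q × Cn B.r} (hu : u ∈ B.s.source)
    (hη : ∀ c, DifferentiableAt ℂ (fun y => η y c) (B.s u)) : DifferentiableAt ℂ (B.vt η) u := by
  refine DifferentiableAt.fun_sum fun c _ => ?_
  have h1 : DifferentiableAt ℂ (fun v => ((EuclideanSpace.proj c : Cn n →L[ℂ] ℂ).comp
      (fderiv ℂ B.s v)).comp (ContinuousLinearMap.inr ℂ (Cn q) (Cn B.r))) u :=
    ((differentiableAt_const _).clm_comp (B.an u hu).fderiv.differentiableAt).clm_comp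
      (differentiableAt_const _)
  have h2 : DifferentiableAt ℂ (fun v => η (B.s v) c) u :=
    (hη c).comp u (B.an u hu).differentiableAt
  exact (isBoundedBilinearMap_smulRight (𝕜 := ℂ) (E := Cn B.r) (F := Y)).differentiableAt _
    |>.comp u (h1.prodMk h2)

theorem fd_vt {η : Cn n → Fin n → Y} {u : Cn q × Cn B.r} (hu : u ∈ B.s.source)
    (hη : ∀ c, DifferentiableAt ℂ (fun y => η y c) (B.s u)) (x y : Cn B.r) :
    fderiv ℂ (B.vt η) u (0, x) y =
      ∑ c, B.V u y c • ∑ b, B.V u x b • dj b (fun z => η z c) (B.s u) +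
      ∑ c, fderiv ℂ (fderiv ℂ B.s) u (0, x) (0, y) c • η (B.s u) c := by
  have h1 : HasFDerivAt (fun v => B.vt η v y)
      ((ContinuousLinearMap.apply ℂ Y y).comp (fderiv ℂ (B.vt η) u)) u :=
    (ContinuousLinearMap.apply ℂ Y y).hasFDerivAt.comp u (B.diff_vt hu hη).hasFDerivAt
  have h2 : ∀ c, HasFDerivAt (fun v => B.V v y c) ((EuclideanSpace.proj c : Cn n →L[ℂ] ℂ).comp
      ((ContinuousLinearMap.apply ℂ (Cn n) ((0, y) : Cn q × Cn B.r)).comp
        (fderiv ℂ (fderiv ℂ B.s) u))) u := fun c =>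
    (EuclideanSpace.proj c : Cn n →L[ℂ] ℂ).hasFDerivAt.comp u
      ((ContinuousLinearMap.apply ℂ (Cn n) ((0, y) : Cn q × Cn B.r)).hasFDerivAt.comp u
        (B.an u hu).fderiv.differentiableAt.hasFDerivAt)
  have h3 := HasFDerivAt.fun_sum (u := Finset.univ) fun c _ => (h2 c).fun_smul
    ((hη c).comp u (B.an u hu).differentiableAt).hasFDerivAt
  simp only [vt_apply] at h1
  have h4 := congrArg (fun L => L ((0, x) : Cn q × Cn B.r)) (h1.unique h3)
  simp only [_root_.sum_apply, _root_.add_apply, _root_.smul_apply,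
    ContinuousLinearMap.smulRight_apply, Finset.sum_add_distrib] at h4
  simp only [B.vert_dj hu (hη _)]
  exact h4

/-- holomorphic primitive along the fibres -/
theorem prim [CompleteSpace Y] {S : Cn n → FI n → Y}
    (hS : ∀ I, ∀ z ∈ B.W, DifferentiableAt ℂ (fun y => S y I) z)
    (deg : ∀ z ∈ B.W, ∀ I : FI n, I.card ≠ q + 1 → S z I = 0)
    (hor : ∀ z ∈ B.W, ∀ k, mv (eW (th a z k)) (S z) = 0)
    (cl : ∀ z ∈ B.W, ∑ b, mv (eW (ep b)) (fun I => dj b (fun y => S y I) z) = 0) :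
    ∃ Φ : Cn n → Y, DifferentiableOn ℂ Φ B.W ∧ (∀ t ∈ ball (a z₀) B.ρ, Φ (B.s (t, 0)) = 0) ∧
      ∀ z ∈ B.W, S z = w1 (ta a z) fun b => dj b Φ z := by
  set η : Cn n → Fin n → Y := fun z => (ta a z B.J)⁻¹ • eta (S z) B.J with hη
  have h1 : ∀ z ∈ B.W, S z = w1 (ta a z) (η z) := fun z hz =>
    Hor.eq_w1 ⟨deg z hz, hor z hz⟩ (B.ne z (B.W_sub hz))
  have h2 : ∀ z ∈ B.W, ∀ c, DifferentiableAt ℂ (fun y => η y c) z := fun z hz c =>
    ((an_ta (B.an_a (B.W_sub hz)) B.J).differentiableAt.inv (B.ne z (B.W_sub hz))).smul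
      (differentiableAt_mv (B := fun _ => iW (ep c)) (fun _ _ => differentiableAt_const _)
        (fun I => hS I z hz) B.J)
  obtain ⟨Ψ, h3, h4, h5⟩ := vprim (θ := B.vt η) (t₀ := a z₀) (ρ := B.ρ)
    (fun u hu => (B.diff_vt (B.sub' hu) (h2 _ ⟨u, hu, rfl⟩)).differentiableWithinAt)
    fun u hu x y => by
      have hz : B.s u ∈ B.W := ⟨u, hu, rfl⟩
      have hc : dF (fun y => w1 (ta a y) (η y)) (B.s u) = 0 := by
        rw [← dF_congr (eventually_of_mem (B.isOpen_W.mem_nhds hz) h1)]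
        exact cl _ hz
      rw [B.fd_vt (B.sub' hu) (h2 _ hz), B.fd_vt (B.sub' hu) (h2 _ hz),
        sym_of_closed (B.an_a (B.W_sub hz)) (h2 _ hz) (B.ne _ (B.W_sub hz)) hc
          (B.V_mem (B.sub' hu) x) (B.V_mem (B.sub' hu) y),
        (B.an u (B.sub' hu)).contDiffAt.isSymmSndFDerivAt (n := ⊤) (by simp) (0, x) (0, y)]
  have h6 : ∀ z ∈ B.W, DifferentiableAt ℂ (fun y => Ψ (B.s.symm y)) z := fun z hz =>
    (h3 _ (B.symm_mem hz)).differentiableAt.comp z (B.an_symm z (B.W_sub hz)).differentiableAt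
  refine ⟨fun y => Ψ (B.s.symm y), fun z hz => (h6 z hz).differentiableWithinAt, fun t ht => ?_,
    ?_⟩
  · have : ((t, 0) : Cn q × Cn B.r) ∈ ball B.o B.ρ := by
      rw [B.ball_eq]
      exact ⟨ht, mem_ball_self B.pos⟩
    simp only [B.s.left_inv (B.sub' this), h4]
  · rintro _ ⟨u, hu, rfl⟩
    rw [h1 _ ⟨u, hu, rfl⟩]
    refine B.w1_eq (B.sub' hu) fun w => ?_
    rw [B.vert_dj (B.sub' hu) (h6 _ ⟨u, hu, rfl⟩), ← B.vt_apply, ← h5 u hu]
    refine congrArg (fun L : (Cn q × Cn B.r) →L[ℂ] Y => L (0, w)) (EventuallyEq.fderiv_eq ?_)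
    filter_upwards [B.s.eventually_left_inverse (B.sub' hu)] with v hv
    rw [hv]

end Box

end Crest.Agent.X261.Rel.Bx
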