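import Crest.Agent.X261.Rel.Inst

/-!
# X261, package REL (helper34), file `Vert`: the limit form does not vanish
-/

set_option autoImplicit false
set_option linter.unusedSectionVars false
set_option linter.dupNamespace false

open Set Filter Topology Metric Matrix MeasureTheory
open scoped ENNReal InnerProductSpace

namespace Crest.Agent.X261.Rel

open Crest.Agent.R275.Geo Crest.Agent.R275.Core144
open Crest.Agent.R275.OmT75 (dl dj dj_congr)
open Crest.Agent.R273.UCov_914
open Crest.Agent.R273.Fock_243 (FI Gam eW iW ep)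
open Crest.Agent.X261.Gauss (mv dV)
open Crest.Agent.X261.Plk (w1)
open Crest.Agent.X261.Rel.Core Crest.Agent.X261.Rel.Bx

theorem mv_zero {n : ℕ} {W : Type*} [AddCommMonoid W] [Module ℂ W] (B : Matrix (FI n) (FI n) ℂ) :
    mv B (fun _ => (0 : W)) = 0 := by
  funext I
  simp [mv]

theorem dj_zero {n : ℕ} {W : Type*} [NormedAddCommGroup W] [NormedSpace ℂ W] (b : Fin n)
    (z : Cn n) : dj b (fun _ => (0 : W)) z = 0 := by simp [dj]

/-- **VERT** -/
theorem vert : VertStmt := by
  intro n X _ A G _ D q M Z F H _ _ _ a f S hl hJ hf hN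
  by_contra h0
  push Not at h0
  let m : Fm Z Unit H H :=
    { J := a.J
      JW := a.J
      cont := a.J.continuous
      ev := fun _ => ContinuousLinearMap.id ℂ H
      sep := fun w h => h ()
      ev_J := fun _ _ => rfl
      f := fun _ => f
      S := fun _ _ _ _ => 0
      re := fun _ => hJ
      lim := fun _ => ⟨hl.f_sm, fun _ _ _ => differentiableOn_const _, fun i v K hK hc I =>
        (hl.lim i v K hK hc I).congr fun k => setLIntegral_congr_fun hc.measurableSet fun z hz => by
          rw [h0 i v _ ((A.e i).map_target (hK hz))]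
          rfl⟩
      hol := fun _ _ _ => differentiableOn_const _
      deg := fun _ _ _ _ _ _ => rfl
      hor := fun _ _ _ _ _ => mv_zero _
      closed := fun i v x _ => Finset.sum_eq_zero fun b _ => by
        simp only [dl, dj_zero]
        exact mv_zero _ }
  obtain ⟨P⟩ := m.exists_pr F
  have hU : ∀ g ∈ M, ∀ e, Z.al e ∈ P.B → P.U (g • e) = P.U e := fun g hg e he => by
    refine const_of_loc (F.conn _ (P.sub he)) (fun y hy => ?_) (Mp.al_M Z hg e) rfl
    have hy' : Z.al y ∈ P.B := by rwa [show Z.al y = Z.al e from hy]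
    obtain ⟨i, hi⟩ := A.cover (D.pr y)
    obtain ⟨b⟩ := F.box (P.sub hy') hi
    obtain ⟨c, hc⟩ := P.form_of (m.loc_box b (Φ := fun _ => 0) (differentiableOn_const _)
      fun z _ => by
        funext I
        simp [m, w1, dj_zero]) ⟨⟨hi, rfl⟩, b.mem_W⟩ hy'
    filter_upwards [mem_nhdsWithin_of_mem_nhds hc, self_mem_nhdsWithin] with w h1 h2
    rw [h1, hc.self_of_nhds, show Z.al w = Z.al y from h2.trans hy.symm]
  obtain ⟨T, c, hc, hT⟩ := hN
  obtain ⟨e, he⟩ := P.ne
  have h1 : ∀ s ∈ T, Nv (NM (D.atl G)) (fun k y => a.α s (P.h () k (Z.al y) + P.U y) -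
      (P.h () k (Z.al y) + P.U y)) e := fun s _ => by
    have h2 := (idl _).of_le (P.apx e he ())
      (g' := fun k y => a.π s (f k y - P.h () k (Z.al y) - P.U y))
      fun k y => ((a.π s).norm_map _).le
    refine (idl _).congr ((idl _).vsub (P.deck s.2 he ()) h2) ?_
    filter_upwards [P.isOpen.mem_nhds he] with y hy k
    rw [hU s s.2 y hy, sub_sub (f k y), ← a.α_sub]
    change _ = f k ((s : G) • y) - _ - P.U y - _
    rw [hf]
    abel
  refine (idl (D.atl G)).pos (c := ENNReal.ofReal c) (ENNReal.ofReal_pos.2 hc).ne'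
    (Eventually.of_forall fun y k => ?_) ((idl _).sum T h1)
  obtain ⟨s, hs, h2⟩ := hT (P.h () k (Z.al y) + P.U y)
  refine le_trans ?_ (Finset.single_le_sum (fun _ _ => zero_le) hs)
  rw [← ofReal_norm]
  exact ENNReal.ofReal_le_ofReal h2

end Crest.Agent.X261.Rel
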